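import Vale.Agent.P261.H321.E.DescFin

/-!
# P261: finiteness and vanishing for `H^s(v_h⁻¹ Laz/(p, v_1, …, v_{h-1}))` in each weight
-/

set_option linter.unusedSectionVars false

namespace Vale.Agent.P261.E

open Vale.Agent.P251 Vale.Agent.P251.C Vale.Agent.P251.F LawRing

section

variable {p h : ℕ} [hp : Fact p.Prime]

theorem finite_prim (D : LTD p h (GaloisField p h)) (w : ℤ) : Finite (Prim (D.TT 0) w) := by
  have := D.finite
  have : Finite (D.EJ 0) := Module.finite_of_finite (GaloisField p h)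
  exact Finite.of_surjective _ ((D.coPt 0).primMk_surjective (D.isCo 0) w)

theorem hFin_prim (hp2 : p ≠ 2) (D : LTD p h (GaloisField p h)) (hh : 1 ≤ h) (w : ℤ) (s : ℕ) :
    HFin (AutF D.H.toFG) (Prim (D.tower.T 0) w) s := by
  have := D.finite
  have := D.charP
  have : Finite (Prim (D.tower.T 0) w) := finite_prim D w
  exact hFin_virtUnif hp2 (D.honda.virtUnif_sq D.card hh) (D.tower.M w 0)
    (D.tower.p_smul w 0) s

/-- Finiteness of the cohomology in degree `0`. -/
theorem cobFin_zero (hp2 : p ≠ 2) (hh : 1 ≤ h) (w : ℤ) :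
    {z : Cob (NN p h 1) 0 | Cob.IsWt w z ∧ Cob.d 0 z = 0}.Finite := by
  obtain ⟨D⟩ := LTD.exists_galoisField p h (by omega)
  have := D.finite
  have := D.charP
  exact descentFin_zero (G := AutF D.H.toFG) (D.tower.ι_law 0) (D.tower.inv 0) w
    (finite_prim D w)

/-- Finiteness of the cohomology in positive degrees. -/
theorem cobFin_succ (hp2 : p ≠ 2) (hh : 1 ≤ h) (w : ℤ) (s : ℕ) :
    ∃ (Q : Type) (_ : Finite Q) (q : Cob (NN p h 1) (s + 1) → Q),
      ∀ z z' : Cob (NN p h 1) (s + 1),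
      Cob.IsWt w z → Cob.d (s + 1) z = 0 → Cob.IsWt w z' → Cob.d (s + 1) z' = 0 → q z = q z' →
      ∃ y : Cob (NN p h 1) s, Cob.IsWt w y ∧ Cob.d s y = z - z' := by
  obtain ⟨D⟩ := LTD.exists_galoisField p h (by omega)
  have := D.finite
  have := D.charP
  exact descentFin_N (G := AutF D.H.toFG) (D.tower.hzero 0) (D.tower.ι_law 0) (D.tower.inv 0) w s
    (hFin_prim hp2 D hh w (s + 1))

/-- Vanishing of the cohomology above `h²`. -/
theorem cobVan (hp2 : p ≠ 2) (hh : 1 ≤ h) (hd : ¬ (p - 1) ∣ h) (w : ℤ) (s : ℕ) (hs : h * h ≤ s)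
    (z : Cob (NN p h 1) (s + 1)) (hw : Cob.IsWt w z) (hdz : Cob.d (s + 1) z = 0) :
    ∃ y : Cob (NN p h 1) s, Cob.IsWt w y ∧ Cob.d s y = z := by
  obtain ⟨D⟩ := LTD.exists_galoisField p h (by omega)
  have := D.finite
  have := D.charP
  exact D.tower.vanish 0 w s (D.honda.hZero_sq CV hp2 hh D.card hd (D.tower.M w 0)
    (D.tower.p_smul w 0) (s + 1) (by omega)) z hw hdz

end

end Vale.Agent.P261.E
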