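import Vale.Agent.P261.H321.E.VNil

/-!
# P261: modules over `Cob Laz s` which are `v_h⁻¹ Cob Laz s / I_h`

`CobQuot p h s u` for an element `u` of a `Cob Laz s`-module `E`; `CobQuot.lam : E ≃+ Cob (NN p h 1) s`,
naturality and weights.
-/

set_option linter.unusedSectionVars false

namespace Vale.Agent.P261.E

open Vale.Agent.P251 Vale.Agent.P251.F Vale.Agent.P251.I Vale.Agent.P251.S

section Compl

variable (p h s : ℕ)

/-- `E` is `v_h⁻¹ (Cob Laz s / I_h)`, with unit `u`. -/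
structure CobQuot {E : Type*} [AddCommGroup E] [Module (Cob Laz s) E] (u : E) : Prop where
  kill : ∀ c ∈ IC p h s, ∀ e : E, c • e = 0
  inj : ∀ e : E, vC p h s • e = 0 → e = 0
  surj : ∀ e : E, ∃ e' : E, vC p h s • e' = e
  dense : ∀ (e : E), ∃ (k : ℕ) (c : Cob Laz s), vC p h s ^ k • e = c • u
  closed : ∀ (c : Cob Laz s), c • u = 0 → ∃ k : ℕ, vC p h s ^ k * c ∈ IC p h s

variable {E : Type*} [AddCommGroup E] [Module (Cob Laz s) E] {u : E}

theorem IJC_one (hh : 1 ≤ h) : IJC p h 1 s = IC p h s := by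
  rw [IJC_eq, pow_one, sup_eq_right, Ideal.span_singleton_le_iff_mem, CobCompl.IC_eq_span]
  refine Ideal.subset_span ⟨0, by omega, ?_⟩
  have h0 : Laz.v p 0 = (p : Laz) := vv_zero p _
  rw [h0, map_natCast]

/-- From the condition `C` for a cyclic module `F = Cob/I_h`. -/
theorem CobQuot.of_compCond {F : Type*} [AddCommGroup F] [Module (Cob Laz s) F]
    {φ : F →ₗ[Cob Laz s] E} (H : CompCond (IC p h s) (vC p h s) φ) (uF : F)
    (hgen : ∀ f : F, ∃ c : Cob Laz s, c • uF = f)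
    (hker : ∀ c : Cob Laz s, c • uF = 0 → c ∈ IC p h s)
    (hkill : ∀ c ∈ IC p h s, c • uF = 0) : CobQuot p h s (φ uF) := by
  have hE : ∀ c ∈ IC p h s, ∀ e : E, c • e = 0 := fun c hc e =>
    H.smul_eq_zero hgen (hkill c hc) e
  have hE1 : ∀ e ∈ (IC p h s ^ 1 • ⊤ : Submodule (Cob Laz s) E), e = 0 := by
    intro e he
    rw [pow_one] at he
    refine Submodule.smul_induction_on he (fun r hr n _ => hE r hr n) ?_
    intro x y hx hy
    rw [hx, hy, add_zero]
  refine ⟨hE, H.inj, H.surj, ?_, ?_⟩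
  · intro e
    obtain ⟨k, f, hf⟩ := H.dense 1 e
    obtain ⟨c, rfl⟩ := hgen f
    refine ⟨k, c, ?_⟩
    have h1 := hE1 _ hf
    rwa [map_smul, sub_eq_zero] at h1
  · intro c hc
    obtain ⟨k, hk⟩ := H.closed 1 (c • uF) (by
      rw [map_smul, hc]
      exact zero_mem _)
    refine ⟨k, hker _ ?_⟩
    rw [pow_one] at hk
    rw [mul_smul]
    refine Submodule.smul_induction_on hk (p := fun x => x = 0) ?_ ?_
    · rintro r hr n -
      obtain ⟨d, rfl⟩ := hgen n
      rw [smul_comm, hkill r hr, smul_zero]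
    · intro x y hx hy
      rw [hx, hy, add_zero]

namespace CobQuot

variable {p h s}
variable (H : CobQuot p h s u)
include H

theorem pow_inj (k : ℕ) {e : E} (he : vC p h s ^ k • e = 0) : e = 0 := by
  induction k with
  | zero => simpa using he
  | succ k ih =>
    rw [pow_succ', mul_smul] at he
    exact ih (H.inj _ he)

theorem pow_surj (k : ℕ) (e : E) : ∃ e' : E, vC p h s ^ k • e' = e := by
  induction k with
  | zero => exact ⟨e, by simp⟩
  | succ k ih =>
    obtain ⟨e', he'⟩ := ih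
    obtain ⟨e'', he''⟩ := H.surj e'
    exact ⟨e'', by rw [pow_succ, mul_smul, he'', he']⟩

variable [Fact p.Prime] (hh : 1 ≤ h)
include hh

theorem toNN_eq_zero_iff' (c : Cob Laz s) : toNN p h 1 s c = 0 ↔ c • u = 0 := by
  rw [toNN_eq_zero_iff, IJC_one p h s hh]
  constructor
  · rintro ⟨k, hk⟩
    have := H.kill _ hk u
    rw [mul_smul] at this
    exact H.pow_inj k this
  · exact H.closed c

theorem exists_lam (e : E) : ∃ y : Cob (NN p h 1) s, ∀ (k : ℕ) (c : Cob Laz s),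
    vC p h s ^ k • e = c • u → toNN p h 1 s (vC p h s) ^ k * y = toNN p h 1 s c := by
  obtain ⟨k₀, c₀, h₀⟩ := H.dense e
  have hu := (isUnit_toNN_vC p h 1 s).pow k₀
  obtain ⟨w, hw⟩ := hu
  refine ⟨(w⁻¹ : (Cob (NN p h 1) s)ˣ) * toNN p h 1 s c₀, fun k c hc => ?_⟩
  have h1 : (vC p h s ^ k * c₀ - vC p h s ^ k₀ * c) • u = 0 := by
    rw [sub_smul, mul_smul, mul_smul, ← h₀, ← hc, smul_comm, sub_self]
  have h2 := (H.toNN_eq_zero_iff' hh _).2 h1
  rw [map_sub, map_mul, map_mul, map_pow, map_pow, ← hw, sub_eq_zero] at h2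
  calc toNN p h 1 s (vC p h s) ^ k * ((w⁻¹ : (Cob (NN p h 1) s)ˣ) * toNN p h 1 s c₀)
      = (w⁻¹ : (Cob (NN p h 1) s)ˣ) * (toNN p h 1 s (vC p h s) ^ k * toNN p h 1 s c₀) := by ring
    _ = toNN p h 1 s c := by rw [h2, Units.inv_mul_cancel_left]

/-- The map `E → Cob (NN p h 1) s`. -/
noncomputable def lamFun (e : E) : Cob (NN p h 1) s := (H.exists_lam hh e).choose

theorem lamFun_spec (e : E) {k : ℕ} {c : Cob Laz s} (hc : vC p h s ^ k • e = c • u) :
    toNN p h 1 s (vC p h s) ^ k * H.lamFun hh e = toNN p h 1 s c :=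
  (H.exists_lam hh e).choose_spec k c hc

theorem lamFun_unique (e : E) {k : ℕ} {c : Cob Laz s} {y : Cob (NN p h 1) s}
    (hc : vC p h s ^ k • e = c • u)
    (hy : toNN p h 1 s (vC p h s) ^ k * y = toNN p h 1 s c) : H.lamFun hh e = y :=
  ((isUnit_toNN_vC p h 1 s).pow k).mul_right_injective (by
    change toNN p h 1 s (vC p h s) ^ k * _ = toNN p h 1 s (vC p h s) ^ k * _
    rw [H.lamFun_spec hh e hc, hy])

/-- The map `E → Cob (NN p h 1) s`, as an additive map. -/
noncomputable def lam : E →+ Cob (NN p h 1) s where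
  toFun := H.lamFun hh
  map_zero' := H.lamFun_unique hh 0 (k := 0) (c := 0)
    (by simp only [smul_zero, zero_smul]) (by simp)
  map_add' e e' := by
    obtain ⟨k, c, hc⟩ := H.dense e
    obtain ⟨k', c', hc'⟩ := H.dense e'
    refine H.lamFun_unique hh _ (k := k + k') (c := vC p h s ^ k' * c + vC p h s ^ k * c') ?_ ?_
    · rw [pow_add, smul_add, add_smul, mul_smul (vC p h s ^ k'), mul_smul (vC p h s ^ k) c',
        ← hc, ← hc', mul_smul, mul_smul, smul_comm (vC p h s ^ k) (vC p h s ^ k') e]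
    · rw [map_add, map_mul, map_mul, map_pow, map_pow, ← H.lamFun_spec hh e hc,
        ← H.lamFun_spec hh e' hc']
      ring

theorem lam_spec (e : E) {k : ℕ} {c : Cob Laz s} (hc : vC p h s ^ k • e = c • u) :
    toNN p h 1 s (vC p h s) ^ k * H.lam hh e = toNN p h 1 s c := H.lamFun_spec hh e hc

theorem lam_unique (e : E) {k : ℕ} {c : Cob Laz s} {y : Cob (NN p h 1) s}
    (hc : vC p h s ^ k • e = c • u)
    (hy : toNN p h 1 s (vC p h s) ^ k * y = toNN p h 1 s c) : H.lam hh e = y :=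
  H.lamFun_unique hh e hc hy

theorem lam_smul (c : Cob Laz s) (e : E) :
    H.lam hh (c • e) = toNN p h 1 s c * H.lam hh e := by
  obtain ⟨k, d, hd⟩ := H.dense e
  refine H.lam_unique hh _ (k := k) (c := c * d) ?_ ?_
  · rw [smul_comm, hd, mul_smul]
  · rw [map_mul, ← H.lam_spec hh e hd]
    ring

theorem lam_u : H.lam hh u = 1 := by
  refine H.lam_unique hh _ (k := 0) (c := 1) ?_ ?_
  · rw [pow_zero]
  · rw [pow_zero, map_one, mul_one]

theorem lam_smul_u (c : Cob Laz s) : H.lam hh (c • u) = toNN p h 1 s c := by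
  rw [H.lam_smul, H.lam_u, mul_one]

theorem lam_eq_zero (e : E) (h0 : H.lam hh e = 0) : e = 0 := by
  obtain ⟨k, c, hc⟩ := H.dense e
  have h1 := H.lam_spec hh e hc
  rw [h0, mul_zero] at h1
  have h2 := (H.toNN_eq_zero_iff' hh c).1 h1.symm
  rw [h2] at hc
  exact H.pow_inj k hc

theorem lam_injective : Function.Injective (H.lam hh) :=
  (injective_iff_map_eq_zero _).2 (H.lam_eq_zero hh)

theorem lam_surjective : Function.Surjective (H.lam hh) := by
  intro y
  obtain ⟨k, c, hc⟩ := exists_toNN p h 1 s y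
  obtain ⟨e, he⟩ := H.pow_surj k (c • u)
  exact ⟨e, H.lam_unique hh e (k := k) (c := c) he hc⟩

end CobQuot

end Compl

namespace CobQuot

section Nat

variable {p h : ℕ} [Fact p.Prime] {m n : ℕ} {E E' : Type*} [AddCommGroup E] [Module (Cob Laz m) E]
  [AddCommGroup E'] [Module (Cob Laz n) E'] {u : E} {u' : E'}
  (H : CobQuot p h m u) (H' : CobQuot p h n u') (hh : 1 ≤ h)

/-- Semilinear maps induce the cosimplicial maps. -/
theorem lam_map {α : Fin (m + 1) → Fin (n + 1)} {f : E →+ E'}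
    (hf : ∀ (c : Cob Laz m) (e : E), f (c • e) = Cob.map α c • f e) (hu : f u = u')
    (e : E) : H'.lam hh (f e) = Cob.map α (H.lam hh e) := by
  obtain ⟨k, c, hc⟩ := H.dense e
  have h1 := congrArg f hc
  rw [hf, hf, hu, map_pow] at h1
  have h2 := congrArg (H'.lam hh) h1
  rw [H'.lam_smul_u, H'.lam_smul, map_pow, toNN_map, toNN_map,
    ← H.lam_spec hh e hc, map_mul, map_pow] at h2
  exact (((isUnit_toNN_vC p h 1 m).map (Cob.map α)).pow k).mul_right_injective h2

end Nat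

section Wt

variable {p h s : ℕ} [Fact p.Prime] {E : Type*} [AddCommGroup E] [Module (Cob Laz s) E] {u : E}
  (H : CobQuot p h s u) (hh : 1 ≤ h) (D : CobCompl.WtProj s u)

/-- `E → Cob (NN p h 1) s` respects the projections to the homogeneous parts. -/
theorem lam_ε (w : ℤ) (e : E) : H.lam hh (D.ε w e) = Cob.proj w (H.lam hh e) := by
  obtain ⟨k, c, hc⟩ := H.dense e
  have hv : Cob.IsWt (k * ((p ^ h : ℤ) - 1)) (vC p h s ^ k) := (CobCompl.isWt_C_v h).pow k
  have h1 := congrArg (D.ε (k * ((p ^ h : ℤ) - 1) + w)) hc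
  rw [D.ε_smul _ _ _ _ hv, D.ε_smul_u] at h1
  have h2 := H.lam_spec hh _ h1
  have hv' : Cob.IsWt (k * ((p ^ h : ℤ) - 1)) (toNN p h 1 s (vC p h s) ^ k) := by
    rw [← map_pow]
    exact hv.mapRing LawRing.isLawHom_ofLaz
  refine (((isUnit_toNN_vC p h 1 s)).pow k).mul_right_injective ?_
  change toNN p h 1 s (vC p h s) ^ k * _ = toNN p h 1 s (vC p h s) ^ k * _
  rw [h2, ← CobWt.proj_mul hv', H.lam_spec hh e hc]
  exact (Cob.proj_mapRing LawRing.isLawHom_ofLaz _ c).symm

/-- The part of weight `w` of `E` is `(Cob (NN p h 1) s)_w`. -/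
theorem exists_wt (w : ℤ) {G : Type*} [AddCommGroup G] (i : G →+ E)
    (hi : Function.Injective i) (hr : ∀ e, D.ε w e = e ↔ ∃ g, i g = e) :
    ∃ φ : G ≃+ Cob.wt (NN p h 1) s w, ∀ (g : G), (φ g).1 = H.lam hh (i g) := by
  have h1 : ∀ g, Cob.IsWt w (H.lam hh (i g)) := fun g => by
    rw [← (hr _).2 ⟨g, rfl⟩, H.lam_ε hh D]
    exact Cob.isWt_proj _ _
  let φ : G →+ Cob.wt (NN p h 1) s w :=
    { toFun := fun g => ⟨H.lam hh (i g), h1 g⟩
      map_zero' := by
        apply Subtype.ext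
        change H.lam hh (i 0) = 0
        rw [map_zero, map_zero]
      map_add' := fun g g' => by
        apply Subtype.ext
        change H.lam hh (i (g + g')) = H.lam hh (i g) + H.lam hh (i g')
        rw [map_add, map_add] }
  have hφ : ∀ (g : G), (φ g).1 = H.lam hh (i g) := fun _ => rfl
  refine ⟨AddEquiv.ofBijective φ ⟨?_, ?_⟩, hφ⟩
  · intro g g' hgg
    apply hi
    apply H.lam_injective hh
    rw [← hφ, ← hφ, hgg]
  · rintro ⟨x, hx⟩
    obtain ⟨e, he⟩ := H.lam_surjective hh x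
    obtain ⟨g, rfl⟩ := (hr e).1 (by
      apply H.lam_injective hh
      rw [H.lam_ε hh D, he, Cob.proj_of_isWt hx, if_pos rfl])
    refine ⟨g, Subtype.ext ?_⟩
    rw [hφ, he]

end Wt

end CobQuot

end Vale.Agent.P261.E
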