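import Vale.Agent.P251.S.FinalI
import Vale.Agent.P251.S.CobarE1

/-!
# P261: finiteness of the abutment of an exact couple
-/

open CategoryTheory MonoidalCategory Limits Pretriangulated MonObj

set_option linter.unusedSectionVars false

universe v u v' u' w

namespace Vale.Agent.P261.E

open Vale.Agent.P251 Vale.Agent.P251.T Vale.Agent.P251.S

section couple

variable (C : Couple.{u, v})

/-- The cohomology of the `E_1`-term is finite at `(s, n)`. -/
def FinE : ∀ (_ : ℕ) (_ : ℤ), Prop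
  | 0, n => ∃ (T : Type) (_ : Finite T) (q : C.E 0 n → T), ∀ z z' : C.E 0 n,
      C.IsCocycle z → C.IsCocycle z' → q z = q z' → z = z'
  | s + 1, n => ∃ (T : Type) (_ : Finite T) (q : C.E (s + 1) n → T), ∀ z z' : C.E (s + 1) n,
      C.IsCocycle z → C.IsCocycle z' → q z = q z' → C.IsCobdy (z - z')

variable {C}

theorem finE_step {n : ℤ} (hF : ∀ s, FinE C s n) (r : ℕ) :
    ∃ (T : Type) (_ : Finite T) (q : C.D (0 + r) n → T), ∀ x x' : C.D (0 + r) n,
      q x = q x' → ∃ w, C.iN 0 n r (x - x') = C.iN 0 n (r + 1) w := by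
  rcases r with _ | r
  · obtain ⟨T, hT, q, hq⟩ := hF 0
    refine ⟨T, hT, fun x => q (C.j 0 n x), fun x x' hx => ?_⟩
    have h1 := hq _ _ (C.isCocycle_j x) (C.isCocycle_j x') hx
    obtain ⟨w, hw⟩ := C.exact_j 0 n (x - x') (by rw [map_sub, h1, sub_self])
    refine ⟨w, ?_⟩
    rw [Couple.iN_succ]
    exact hw.symm
  · obtain ⟨T, hT, q, hq⟩ := hF (0 + r + 1)
    refine ⟨T, hT, fun x => q (C.j (0 + r + 1) n x), fun x x' hx => ?_⟩
    obtain ⟨e, he⟩ := hq _ _ (C.isCocycle_j x) (C.isCocycle_j x') hx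
    rw [Couple.d_apply, ← map_sub] at he
    obtain ⟨w, hw⟩ := C.exact_j (0 + r + 1) n (x - x' - C.k (0 + r) (n + 1) n rfl e) (by
      rw [map_sub, he]
      exact sub_self _)
    refine ⟨w, ?_⟩
    have h1 : C.iN 0 n (r + 1 + 1) w = C.iN 0 n (r + 1) (C.i (0 + r + 1) n w) := rfl
    rw [h1, hw]
    have h2 : ∀ y : C.D (0 + r + 1) n, C.iN 0 n (r + 1) y = C.iN 0 n r (C.i (0 + r) n y) :=
      fun _ => rfl
    rw [h2, h2, map_sub (C.i (0 + r) n) (x - x'), C.i_k, sub_zero]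

theorem finE_iN {n : ℤ} (hF : ∀ s, FinE C s n) (r : ℕ) :
    ∃ (T : Type) (_ : Finite T) (q : C.D 0 n → T), ∀ y y' : C.D 0 n,
      q y = q y' → ∃ w, y - y' = C.iN 0 n r w := by
  classical
  induction r with
  | zero => exact ⟨Unit, inferInstance, fun _ => (), fun y y' _ => ⟨y - y', rfl⟩⟩
  | succ r ih =>
    obtain ⟨T, hT, q, hq⟩ := ih
    obtain ⟨T', hT', q', hq'⟩ := finE_step hF r
    let rep : T → C.D 0 n := fun t => if h : ∃ y, q y = t then h.choose else 0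
    have hrep : ∀ y, q (rep (q y)) = q y := by
      intro y
      have h : ∃ y', q y' = q y := ⟨y, rfl⟩
      simp only [rep, dif_pos h]
      exact h.choose_spec
    choose x hx using fun y => hq y (rep (q y)) (hrep y).symm
    refine ⟨T × T', inferInstance, fun y => (q y, q' (x y)), fun y y' he => ?_⟩
    have e1 : q y = q y' := congrArg Prod.fst he
    have e2 : q' (x y) = q' (x y') := congrArg Prod.snd he
    obtain ⟨w, hw⟩ := hq' _ _ e2
    refine ⟨w, ?_⟩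
    rw [← hw, map_sub, ← hx, ← hx, e1]
    abel

/-- Finiteness of the abutment. -/
theorem finite_D0 {n : ℤ} (hF : ∀ s, FinE C s n) (s₀ : ℕ)
    (hi : ∀ s, s₀ ≤ s → ∀ y : C.D (s + 1) n, C.i s n y = 0) : Finite (C.D 0 n) := by
  obtain ⟨T, hT, q, hq⟩ := finE_iN hF (s₀ + 1)
  refine Finite.of_injective q fun y y' he => ?_
  obtain ⟨w, hw⟩ := hq y y' he
  have h1 : C.iN 0 n (s₀ + 1) w = C.iN 0 n s₀ (C.i (0 + s₀) n w) := rfl
  rw [h1, hi (0 + s₀) (by omega), map_zero, sub_eq_zero] at hw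
  exact hw

end couple

section cobar

variable {T : Type u} [Category.{v} T] [Preadditive T] [HasZeroObject T] [HasShift T ℤ]
  [∀ n : ℤ, (shiftFunctor T n).Additive] [Pretriangulated T] [MonoidalCategory T]
  [SymmetricCategory T] [TensorTriangulated T]
  {D : Type u'} [Category.{v'} D] [Preadditive D] [HasZeroObject D] [HasShift D ℤ]
  [∀ n : ℤ, (shiftFunctor D n).Additive] [Pretriangulated D]
  {R : T} [MonObj R] (U : UnitCof R) (Y : T) (F : T ⥤ D) [F.CommShift ℤ]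
  [F.IsTriangulated] (P : D)

theorem finE_zero {n t : ℤ} (h : n + ((0 : ℕ) : ℤ) = t)
    (hfin : {c : P⟦t⟧ ⟶ F.obj (U.cobar.Q (0 + 1) Y) |
      c ≫ F.map (U.cobar.d (0 + 1) Y) = 0}.Finite) :
    FinE (((U.tow Y).map F).couple P) 0 n := by
  classical
  choose c hc using fun z : {z : (((U.tow Y).map F).couple P).E 0 n //
    (((U.tow Y).map F).couple P).IsCocycle z} => U.exists_cocycle_qE Y F P h z.1 z.2
  have := hfin.to_subtype
  obtain ⟨N, ⟨e⟩⟩ := Finite.exists_equiv_fin {c : P⟦t⟧ ⟶ F.obj (U.cobar.Q (0 + 1) Y) |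
      c ≫ F.map (U.cobar.d (0 + 1) Y) = 0}
  refine ⟨Option (Fin N), inferInstance, fun z =>
    if hz : (((U.tow Y).map F).couple P).IsCocycle z then some (e ⟨c ⟨z, hz⟩, (hc ⟨z, hz⟩).1⟩)
    else none, fun z z' hz hz' he => ?_⟩
  beta_reduce at he
  rw [dif_pos hz, dif_pos hz'] at he
  have h1 := congrArg Subtype.val (e.injective (Option.some.inj he))
  have h2 := (hc ⟨z, hz⟩).2
  have h3 := (hc ⟨z', hz'⟩).2
  change c ⟨z, hz⟩ = c ⟨z', hz'⟩ at h1
  rw [h1] at h2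
  exact h2.symm.trans h3

theorem finE_succ {s : ℕ} {n t : ℤ} (h : n + ((s + 1 : ℕ) : ℤ) = t)
    (hfin : ∃ (Q : Type) (_ : Finite Q) (q : (P⟦t⟧ ⟶ F.obj (U.cobar.Q (s + 2) Y)) → Q),
      ∀ c c' : P⟦t⟧ ⟶ F.obj (U.cobar.Q (s + 2) Y), c ≫ F.map (U.cobar.d (s + 2) Y) = 0 →
        c' ≫ F.map (U.cobar.d (s + 2) Y) = 0 → q c = q c' →
        ∃ b : P⟦t⟧ ⟶ F.obj (U.cobar.Q (s + 1) Y), b ≫ F.map (U.cobar.d (s + 1) Y) = c - c') :
    FinE (((U.tow Y).map F).couple P) (s + 1) n := by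
  classical
  obtain ⟨Q, hQ, q, hq⟩ := hfin
  choose c hc using fun z : {z : (((U.tow Y).map F).couple P).E (s + 1) n //
    (((U.tow Y).map F).couple P).IsCocycle z} => U.exists_cocycle_qE Y F P h z.1 z.2
  refine ⟨Option Q, inferInstance, fun z =>
    if hz : (((U.tow Y).map F).couple P).IsCocycle z then some (q (c ⟨z, hz⟩)) else none,
    fun z z' hz hz' he => ?_⟩
  beta_reduce at he
  rw [dif_pos hz, dif_pos hz'] at he
  obtain ⟨b, hb⟩ := hq _ _ (hc ⟨z, hz⟩).1 (hc ⟨z', hz'⟩).1 (Option.some.inj he)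
  have h1 : (n + 1) + (s : ℤ) = t := by push_cast at h; omega
  refine ⟨U.qE Y F P h1 b, ?_⟩
  rw [U.d_qE Y F P rfl h1 h, hb, map_sub, (hc ⟨z, hz⟩).2, (hc ⟨z', hz'⟩).2]

theorem finE_of_zero {s : ℕ} {n : ℤ} (h0 : ∀ z : (((U.tow Y).map F).couple P).E s n, z = 0) :
    FinE (((U.tow Y).map F).couple P) s n := by
  rcases s with _ | s
  · exact ⟨Unit, inferInstance, fun _ => (), fun z z' _ _ _ => by rw [h0 z, h0 z']⟩
  · refine ⟨Unit, inferInstance, fun _ => (), fun z z' _ _ _ => ?_⟩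
    rw [h0 (z - z')]
    exact ⟨0, map_zero _⟩

end cobar

end Vale.Agent.P261.E
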