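import Vale.Agent.P261.H321.E.HFinUnif

/-!
# P261: finiteness of the cohomology of virtually uniform groups, Shapiro's lemma
-/

set_option linter.unusedSectionVars false

open Finset Function

namespace Vale.Agent.P261.E

open Vale.Agent.P251.C Vale.Agent.P251.I

section Lift

variable {G : Type} [Group G] [TopologicalSpace G] [CompactSpace G] (P : Subgroup G)
  {M : Type} [AddCommGroup M] [DistribMulAction P M]

/-- Shapiro's lemma, cochain form, for one cocycle. -/
theorem shapiro_one {ρ : G → P} (hρ : Continuous ρ)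
    (hρ' : ∀ (p : P) (g : G), ρ (p * g) = p * ρ g)
    {s : ℕ} (f : (Fin (s + 1) → G) → M) (hf : IsLocallyConstant f)
    (hf' : ∀ (p : P) (x : Fin (s + 1) → G), f (fun i => p * x i) = p • f x) (hd : dd f = 0)
    (Y : (Fin s → P) → M) (hY : IsCoch P Y) (hY2 : dd Y = fun x => f (Subtype.val ∘ x)) :
    ∃ y : (Fin s → G) → M, IsLocallyConstant y ∧
      (∀ (p : P) (x : Fin s → G), y (fun i => p * x i) = p • y x) ∧ dd y = f := by
  set r : G → G := fun g => (ρ g : G) with hr
  have hrc : Continuous r := continuous_subtype_val.comp hρ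
  refine ⟨fun x => Y (ρ ∘ x) - prism r f x, ?_, ?_, ?_⟩
  · exact (hY.lc.comp_continuous (continuous_pi fun j => hρ.comp (continuous_apply j))).sub
      (isLocallyConstant_prism hrc hf)
  · intro p x
    have e1 : Y (ρ ∘ fun i => (p : G) * x i) = p • Y (ρ ∘ x) := by
      rw [← hY.equi p (ρ ∘ x)]
      congr 1
      funext i
      exact hρ' p (x i)
    have e2 : prism r f (fun i => (p : G) * x i) = p • prism r f x := by
      have h1 := prism_comp r (fun g => (p : G) * g) (fun g => by simp [hr, hρ']) f x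
      have h2 : (fun y : Fin (s + 1) → G => f ((fun g => (p : G) * g) ∘ y)) =
          fun y => DistribSMul.toAddMonoidHom M p (f y) := by
        funext y
        exact hf' p y
      rw [h2, prism_map] at h1
      exact h1
    simp only [e1, e2, smul_sub]
  · have h1 : dd (fun x : Fin s → G => Y (ρ ∘ x) - prism r f x) =
        dd (fun x : Fin s → G => Y (ρ ∘ x)) - dd (prism r f) := dd_sub _ _
    rw [h1]
    funext x
    have h2 := prism_homotopy r f x
    rw [hd, prism_zero, add_zero] at h2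
    have h4 : dd (fun x : Fin s → G => Y (ρ ∘ x)) x = f (r ∘ x) := by
      rw [dd_comp ρ Y x, hY2]
      rfl
    rw [Pi.sub_apply, h4, h2]
    simp

end Lift

section

variable {G : Type} [Group G] [TopologicalSpace G] [IsTopologicalGroup G] [CompactSpace G]
  [T2Space G] [TotallyDisconnectedSpace G]
  {X : Type} [TopologicalSpace X] [CompactSpace X] [T2Space X] [TotallyDisconnectedSpace X]
  [MulAction G X] [ContinuousSMul G X]
  {M : Type} [AddCommGroup M] [DistribMulAction G M]

theorem HFin.ind_stab [DiscMod G M] {s : ℕ} (x₀ : X) (htr : ∀ x : X, ∃ g : G, g • x₀ = x)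
    (hopen : IsOpen (MulAction.stabilizer G x₀ : Set G))
    (h : HFin (MulAction.stabilizer G x₀) M (s + 1)) : HFin G (LC X M) (s + 1) := by
  obtain ⟨T, hT, q, hq⟩ := h
  obtain ⟨ρ, hρ, hρ'⟩ := exists_retraction_of_open (MulAction.stabilizer G x₀) hopen
  refine ⟨T, hT, fun F => q fun y => F (Subtype.val ∘ y) x₀, ?_⟩
  intro F F' hF hd hF' hd' hqq
  have hev : ∀ F : (Fin (s + 2) → G) → LC X M, dd F = 0 → dd (fun k => F k x₀) = 0 := by
    intro F hd
    funext k
    rw [← dd_apply_LC, hd]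
    rfl
  have heq : ∀ F : (Fin (s + 2) → G) → LC X M, IsCoch G F →
      ∀ (p : MulAction.stabilizer G x₀) (k : Fin (s + 2) → G),
        F (fun i => p * k i) x₀ = p • F k x₀ := by
    intro F hF p k
    rw [hF.equi p k, LC.smul_apply]
    have : (p : G)⁻¹ • x₀ = x₀ := by
      rw [inv_smul_eq_iff]; exact p.2.symm
    rw [this]
    rfl
  have hres : ∀ F : (Fin (s + 2) → G) → LC X M, IsCoch G F → dd F = 0 →
      IsCoch (MulAction.stabilizer G x₀)
        (fun y : Fin (s + 2) → MulAction.stabilizer G x₀ => F (Subtype.val ∘ y) x₀) ∧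
      dd (fun y : Fin (s + 2) → MulAction.stabilizer G x₀ => F (Subtype.val ∘ y) x₀) = 0 := by
    intro F hF hd
    refine ⟨⟨?_, fun p x => heq F hF p (Subtype.val ∘ x)⟩, ?_⟩
    · exact (hF.lc.comp fun f : LC X M => f x₀).comp_continuous
        (continuous_pi fun j => continuous_subtype_val.comp (continuous_apply j))
    · funext x
      exact congrFun (hev F hd) (Subtype.val ∘ x)
  obtain ⟨Y, hY, hdY⟩ := hq _ _ (hres F hF hd).1 (hres F hF hd).2 (hres F' hF' hd').1
    (hres F' hF' hd').2 hqq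
  have hFF : IsCoch G (F - F') := hF.sub hF'
  have hdd : dd (F - F') = 0 := by rw [dd_sub, hd, hd', sub_zero]
  obtain ⟨y, hy1, hy2, hy3⟩ := shapiro_one (MulAction.stabilizer G x₀) hρ hρ'
    (fun k => (F - F') k x₀) (hFF.lc.comp fun f : LC X M => f x₀) (heq _ hFF) (hev _ hdd) Y hY
    (by rw [hdY]; rfl)
  obtain ⟨Z, hZ1, hZ2, hZ3⟩ := exists_equivariant_extension x₀ y hy1 hy2
  have hlc : ∀ k, IsLocallyConstant (Z k) := fun k =>
    hZ1.comp_continuous (Continuous.prodMk continuous_const continuous_id)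
  have hZc : IsCoch G (fun k => LC.mk (Z k) (hlc k)) := by
    refine ⟨isLocallyConstant_curry _ hZ1, ?_⟩
    intro g k
    ext x
    rw [LC.smul_apply, LC.mk_apply, LC.mk_apply, ← hZ2 g k, smul_inv_smul]
  refine ⟨fun k => LC.mk (Z k) (hlc k), hZc, ?_⟩
  have hx0 : ∀ k, (dd (fun k => LC.mk (Z k) (hlc k)) - (F - F')) k x₀ = 0 := by
    intro k
    have e1 : (fun k => Z k x₀) = y := by
      funext k
      have := hZ3 1 k
      simpa using this
    have e2 : dd (fun k => LC.mk (Z k) (hlc k)) k x₀ = dd (fun k => Z k x₀) k :=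
      dd_apply_LC _ _ _
    rw [Pi.sub_apply, LC.sub_apply, e2, e1, hy3]
    exact sub_self _
  rw [← sub_eq_zero]
  funext k
  ext x
  obtain ⟨g, rfl⟩ := htr x
  have h1 := (hZc.dd.sub hFF).equi g (fun i => g⁻¹ * k i)
  simp only [mul_inv_cancel_left] at h1
  rw [h1, LC.smul_apply, inv_smul_smul, hx0, smul_zero]
  rfl

/-- Shapiro's lemma for open subgroups. -/
theorem HFin.ind [DiscMod G M] {s : ℕ} (P : Subgroup G) (hP : IsOpen (P : Set G))
    (h : HFin P M (s + 1)) : HFin G (LC (G ⧸ P) M) (s + 1) := by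
  have hdisc : DiscreteTopology (G ⧸ P) := QuotientGroup.discreteTopology hP
  have h1 : MulAction.stabilizer G ((1 : G) : G ⧸ P) = P := MulAction.stabilizer_quotient P
  have h2 : HFin (MulAction.stabilizer G ((1 : G) : G ⧸ P)) M (s + 1) := by rw [h1]; exact h
  refine HFin.ind_stab ((1 : G) : G ⧸ P) ?_ (by rw [h1]; exact hP) h2
  intro x
  obtain ⟨g, rfl⟩ := QuotientGroup.mk_surjective x
  refine ⟨g, ?_⟩
  change ((g * 1 : G) : G ⧸ P) = _
  rw [mul_one]

end

section virt

variable {G : Type} [Group G] [TopologicalSpace G] [IsTopologicalGroup G] [CompactSpace G]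
  [T2Space G] [TotallyDisconnectedSpace G]

/-- quotients of discrete modules -/
theorem discMod_quot {M : Type} [AddCommGroup M] [DistribMulAction G M] [DiscMod G M]
    (A : AddSubgroup M) (hA : ∀ (g : G) (a : M), a ∈ A → g • a ∈ A) :
    @DiscMod G (M ⧸ A) _ _ _ (quotAct A hA) := by
  let _ := quotAct A hA
  constructor
  intro m
  obtain ⟨b, rfl⟩ := QuotientAddGroup.mk_surjective m
  have h1 : IsLocallyConstant fun g : G => ((g • b : M) : M ⧸ A) :=
    (smul_lc (G := G) b).comp (fun z : M => (z : M ⧸ A))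
  have h2 : {g : G | g • (b : M ⧸ A) = (b : M ⧸ A)} =
      (fun g : G => ((g • b : M) : M ⧸ A)) ⁻¹' {(b : M ⧸ A)} := rfl
  rw [h2]
  exact h1 _

/-- Finiteness passes from an open subgroup to the group. -/
theorem hFin_of_open {P : Subgroup G} (hP : IsOpen (P : Set G)) {p : ℕ}
    (h : ∀ (M : Type) [AddCommGroup M] [DistribMulAction P M] [DiscMod P M] [Finite M],
      (∀ m : M, p • m = 0) → ∀ s, HFin P M s) :
    ∀ (s : ℕ) (M : Type) [AddCommGroup M] [DistribMulAction G M] [DiscMod G M] [Finite M],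
      (∀ m : M, p • m = 0) → HFin G M s := by
  intro s
  induction s with
  | zero =>
    intro M _ _ _ _ hM
    exact Set.toFinite _
  | succ s ih =>
    intro M _ _ _ _ hM
    have hdisc : DiscreteTopology (G ⧸ P) := QuotientGroup.discreteTopology hP
    have : Finite (G ⧸ P) := Subgroup.quotient_finite_of_isOpen P hP
    have hfB : Finite (LC (G ⧸ P) M) :=
      Finite.of_injective (fun (f : LC (G ⧸ P) M) (x : G ⧸ P) => f x)
        (fun f g hfg => LC.ext fun x => congrFun hfg x)
    have : DiscMod G (LC (G ⧸ P) M) := discMod_LC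
    let A : AddSubgroup (LC (G ⧸ P) M) := (LC.const G (G ⧸ P) M : M →+ LC (G ⧸ P) M).range
    have hA : ∀ (g : G) (a : LC (G ⧸ P) M), a ∈ A → g • a ∈ A := by
      rintro g a ⟨m, rfl⟩
      exact ⟨g • m, map_smul (LC.const G (G ⧸ P) M) g m⟩
    let _ : DistribMulAction G (LC (G ⧸ P) M ⧸ A) := quotAct A hA
    have : DiscMod G (LC (G ⧸ P) M ⧸ A) := discMod_quot A hA
    let q : LC (G ⧸ P) M →+[G] (LC (G ⧸ P) M ⧸ A) :=
      { toFun := fun b => (b : LC (G ⧸ P) M ⧸ A)
        map_smul' := fun g b => rfl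
        map_zero' := rfl
        map_add' := fun a b => rfl }
    have hpB : ∀ b : LC (G ⧸ P) M, p • b = 0 := by
      intro b
      ext x
      have h1 : (p • b : LC (G ⧸ P) M) x = p • b x := map_nsmul (LC.ev x) p b
      rw [h1, hM]
      rfl
    refine HFin.left (G := G) (LC.const G (G ⧸ P) M) q ?_ ?_ ?_ ?_ (HFin.ind P hP ?_)
      (ih (LC (G ⧸ P) M ⧸ A) ?_)
    · intro a b hab
      exact congrArg (fun f : LC (G ⧸ P) M => f ((1 : G) : G ⧸ P)) hab
    · exact QuotientAddGroup.mk_surjective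
    · intro a
      exact (QuotientAddGroup.eq_zero_iff _).2 ⟨a, rfl⟩
    · intro b hb
      obtain ⟨a, ha⟩ := (QuotientAddGroup.eq_zero_iff b).1 hb
      exact ⟨a, ha⟩
    · exact h M hM (s + 1)
    · intro b
      obtain ⟨b, rfl⟩ := QuotientAddGroup.mk_surjective b
      have h1 : p • (b : LC (G ⧸ P) M ⧸ A) = ((p • b : LC (G ⧸ P) M) : LC (G ⧸ P) M ⧸ A) := rfl
      rw [h1, hpB]
      rfl

/-- **Finiteness for virtually uniform groups and finite coefficients.** -/
theorem hFin_virtUnif {p d : ℕ} [Fact p.Prime] (hp2 : p ≠ 2) (V : VirtUnif p d G)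
    (M : Type) [AddCommGroup M] [DistribMulAction G M] [DiscMod G M] [Finite M]
    (hM : ∀ m : M, p • m = 0) (s : ℕ) : HFin G M s := by
  have hUc : CompactSpace V.U :=
    isCompact_iff_compactSpace.1 (Subgroup.isClosed_of_isOpen V.U V.isOpen).isCompact
  exact hFin_of_open V.isOpen (fun M _ _ _ _ hM s => hFin_unif hp2 V.unif M hM s) s M hM

end virt

end Vale.Agent.P261.E
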