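import Vale.Agent.P251.F.InvBasis
import Vale.Agent.P251.F.LTFinal
import Vale.Agent.P251.F.MainFS
import Vale.Agent.P261.H321.E.HFinVirt

/-!
# P261: finiteness of the cohomology of the cobar complex of `v_h⁻¹ Laz/(p, v_1, …, v_{h-1})`
-/

set_option linter.unusedSectionVars false

namespace Vale.Agent.P261.E

open Vale.Agent.P251 Vale.Agent.P251.C Vale.Agent.P251.F LawRing

section Descent

variable {G : Type} [Group G] [TopologicalSpace G] [IsTopologicalGroup G]
  {A : ℕ → Type} [∀ b, AddCommGroup (A b)] [∀ b, DistribMulAction G (A b)]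

/-- Abstract descent, finiteness. -/
theorem descent_fin [∀ b, DiscMod G (A b)]
    (d : ∀ b, A b →+[G] A (b + 1)) (hdd : ∀ b x, d (b + 1) (d b x) = 0)
    (hex : ∀ b x, d (b + 1) x = 0 → ∃ y, d b y = x)
    (hG : ∀ a b, HZero G (A b) (a + 1)) (s : ℕ)
    (hM : ∃ (T : Type) (_ : Finite T) (q : ((Fin (s + 2) → G) → A 0) → T),
      ∀ c c' : (Fin (s + 2) → G) → A 0, IsCoch G c → dd c = 0 → (∀ x, d 0 (c x) = 0) →
        IsCoch G c' → dd c' = 0 → (∀ x, d 0 (c' x) = 0) → q c = q c' →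
        ∃ m : (Fin (s + 1) → G) → A 0, IsCoch G m ∧ (∀ x, d 0 (m x) = 0) ∧ dd m = c - c') :
    ∃ (T : Type) (_ : Finite T) (q : A (s + 1) → T), ∀ z z' : A (s + 1),
      (∀ g : G, g • z = z) → d (s + 1) z = 0 → (∀ g : G, g • z' = z') → d (s + 1) z' = 0 →
      q z = q z' → ∃ y : A s, (∀ g : G, g • y = y) ∧ d s y = z - z' := by
  classical
  have Q : ∀ b a : ℕ, a + b = s →
      ∃ (T : Type) (_ : Finite T) (q : ((Fin (a + 2) → G) → A b) → T),
      ∀ c c' : (Fin (a + 2) → G) → A b, IsCoch G c → dd c = 0 → (∀ x, d b (c x) = 0) →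
        IsCoch G c' → dd c' = 0 → (∀ x, d b (c' x) = 0) → q c = q c' →
        ∃ m : (Fin (a + 1) → G) → A b, IsCoch G m ∧ (∀ x, d b (m x) = 0) ∧ dd m = c - c' := by
    intro b
    induction b with
    | zero =>
      intro a ha
      obtain rfl : a = s := ha
      exact hM
    | succ b ih =>
      intro a ha
      obtain ⟨T, hT, q, hq⟩ := ih (a + 1) (by omega)
      have hY : ∀ c : (Fin (a + 2) → G) → A (b + 1), ∃ y : (Fin (a + 2) → G) → A b,
          IsCoch G c → (∀ x, d (b + 1) (c x) = 0) → IsCoch G y ∧ ∀ x, d b (y x) = c x := by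
        intro c
        by_cases h : IsCoch G c ∧ ∀ x, d (b + 1) (c x) = 0
        · obtain ⟨y, hy, hyc⟩ := coch_lift (d b) (d (b + 1)) (hex b) h.1 h.2
          exact ⟨y, fun _ _ => ⟨hy, hyc⟩⟩
        · exact ⟨0, fun h1 h2 => absurd ⟨h1, h2⟩ h⟩
      choose Y hY using hY
      refine ⟨T, hT, fun c => q (dd (Y c)), ?_⟩
      intro c c' hc hdc hd hc' hdc' hd' he
      obtain ⟨y1, y2⟩ := hY c hc hd
      obtain ⟨y1', y2'⟩ := hY c' hc' hd'
      have hk : ∀ c, IsCoch G c → dd c = 0 → (∀ x, d (b + 1) (c x) = 0) →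
          ∀ x, d b (dd (Y c) x) = 0 := by
        intro c hc hdc hd x
        obtain ⟨y1, y2⟩ := hY c hc hd
        have h1 := congrFun (dd_mapG (d b) (Y c)) x
        rw [show (fun x => d b (Y c x)) = c from funext y2, hdc] at h1
        exact h1.symm
      obtain ⟨m, hm, hdm, hφm⟩ := hq (dd (Y c)) (dd (Y c')) y1.dd (dd_dd _) (hk c hc hdc hd)
        y1'.dd (dd_dd _) (hk c' hc' hdc' hd') he
      obtain ⟨w, hw, hdw⟩ := hG a b (Y c - Y c' - m) ((y1.sub y1').sub hm) (by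
        rw [dd_sub, dd_sub, hφm, sub_self])
      refine ⟨fun x => d b (w x), hw.map (d b), fun x => hdd b _, ?_⟩
      rw [dd_mapG, hdw]
      funext x
      simp only [Pi.sub_apply, map_sub, y2, y2', hdm, sub_zero]
  obtain ⟨T, hT, q, hq⟩ := Q s 0 (by omega)
  have hY : ∀ z : A (s + 1), ∃ y : (Fin 1 → G) → A s, (∀ g : G, g • z = z) →
      d (s + 1) z = 0 → IsCoch G y ∧ ∀ x, d s (y x) = z := by
    intro z
    by_cases h : (∀ g : G, g • z = z) ∧ d (s + 1) z = 0
    · obtain ⟨y, hy, hyz⟩ := coch_lift (n := 0) (d s) (d (s + 1)) (hex s)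
        (F := fun _ => z) ⟨IsLocallyConstant.const z, fun g _ => (h.1 g).symm⟩ (fun _ => h.2)
      exact ⟨y, fun _ _ => ⟨hy, hyz⟩⟩
    · exact ⟨0, fun h1 h2 => absurd ⟨h1, h2⟩ h⟩
  choose Y hY using hY
  refine ⟨T, hT, fun z => q (dd (Y z)), ?_⟩
  intro z z' hz hdz hz' hdz' he
  obtain ⟨y1, y2⟩ := hY z hz hdz
  obtain ⟨y1', y2'⟩ := hY z' hz' hdz'
  have hk : ∀ z : A (s + 1), (∀ g : G, g • z = z) → d (s + 1) z = 0 →
      ∀ x, d s (dd (Y z) x) = 0 := by
    intro z hz hdz x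
    obtain ⟨y1, y2⟩ := hY z hz hdz
    have h1 := congrFun (dd_mapG (d s) (Y z)) x
    rw [show (fun x => d s (Y z x)) = fun _ => z from funext y2] at h1
    refine h1.symm.trans ?_
    simp [dd, Fin.sum_univ_succ]
  obtain ⟨m, hm, hdm, hφm⟩ := hq (dd (Y z)) (dd (Y z')) y1.dd (dd_dd _) (hk z hz hdz)
    y1'.dd (dd_dd _) (hk z' hz' hdz') he
  obtain ⟨y, hy, hyx⟩ := cocycle_zero (F := Y z - Y z' - m) ((y1.sub y1').sub hm) (by
    rw [dd_sub, dd_sub, hφm, sub_self])
  refine ⟨y, hy, ?_⟩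
  have h1 := congrArg (d s) (hyx fun _ => 1)
  rw [← h1]
  simp only [Pi.sub_apply, map_sub, y2, y2', hdm, sub_zero]

end Descent

section Weight

variable {G : Type} [Group G] [TopologicalSpace G] [IsTopologicalGroup G] [CompactSpace G]
variable {T : Type} [CommRing T] [LawRing T] [MulSemiringAction G T] [LawAction G T]

/-- Descent, finiteness, for a framed law ring with an action of `G`. -/
theorem descentFin_weight [DiscMod G T] [Framed T] (hT : ∀ a, HZero G T (a + 1)) (w : ℤ) (s : ℕ)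
    (hM : HFin G (Prim T w) (s + 1)) :
    ∃ (Q : Type) (_ : Finite Q) (q : Cob T (s + 1) → Q), ∀ z z' : Cob T (s + 1),
      (∀ γ : G, γ • z = z) → Cob.IsWt w z → Cob.d (s + 1) z = 0 →
      (∀ γ : G, γ • z' = z') → Cob.IsWt w z' → Cob.d (s + 1) z' = 0 → q z = q z' →
      ∃ y : Cob T s, (∀ γ : G, γ • y = y) ∧ Cob.IsWt w y ∧ Cob.d s y = z - z' := by
  classical
  obtain ⟨Q, hQ, q, hq⟩ := descent_fin (G := G) (A := fun b => Cob.wt T b w)
    (fun b => wtD G T b w) (fun b x => Subtype.ext (Cob.d_d x.1))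
    (fun b x hx => ⟨⟨Cob.ctr T b x.1, Cob.IsWt.ctr x.2⟩,
      Subtype.ext (Cob.exact_of_framed (congrArg Subtype.val hx))⟩)
    (fun a b => hzero_wt (hT a) w) s (by
      obtain ⟨Q, hQ, q, hq⟩ := hM
      let P : Prim T w →+[G] Cob.wt T 0 w :=
        { toFun := fun x => x.1
          map_smul' := fun _ _ => rfl
          map_zero' := rfl
          map_add' := fun _ _ => rfl }
      have hL : ∀ c : (Fin (s + 2) → G) → Cob.wt T 0 w, ∃ c' : (Fin (s + 2) → G) → Prim T w,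
          IsCoch G c → (∀ x, wtD G T 0 w (c x) = 0) → IsCoch G c' ∧ ∀ x, P (c' x) = c x := by
        intro c
        by_cases h : IsCoch G c ∧ ∀ x, wtD G T 0 w (c x) = 0
        · obtain ⟨c', hc', hcc'⟩ := IsCoch.of_inj P Subtype.val_injective h.1
            (fun x => ⟨⟨c x, congrArg Subtype.val (h.2 x)⟩, rfl⟩)
          exact ⟨c', fun _ _ => ⟨hc', hcc'⟩⟩
        · exact ⟨0, fun h1 h2 => absurd ⟨h1, h2⟩ h⟩
      choose L hL using hL
      refine ⟨Q, hQ, fun c => q (L c), ?_⟩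
      intro c c' hc hdc hd hc' hdc' hd' he
      have hk : ∀ c, IsCoch G c → dd c = 0 → (∀ x, wtD G T 0 w (c x) = 0) → dd (L c) = 0 := by
        intro c hc hdc hd
        funext x
        apply Subtype.val_injective
        have h1 := congrFun (dd_mapG P (L c)) x
        rw [show (fun x => P (L c x)) = c from funext (hL c hc hd).2, hdc] at h1
        exact h1.symm
      obtain ⟨Y, hY, hdY⟩ := hq (L c) (L c') (hL c hc hd).1 (hk c hc hdc hd)
        (hL c' hc' hd').1 (hk c' hc' hdc' hd') he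
      refine ⟨fun x => P (Y x), hY.map P, fun x => Subtype.ext (Y x).2, ?_⟩
      rw [dd_mapG, hdY]
      funext x
      rw [Pi.sub_apply, Pi.sub_apply, map_sub, (hL c hc hd).2, (hL c' hc' hd').2])
  refine ⟨Q, hQ, fun z => if h : Cob.IsWt w z then q ⟨z, h⟩ else q 0, ?_⟩
  intro z z' hz hw hdz hz' hw' hdz' he
  beta_reduce at he
  rw [dif_pos hw, dif_pos hw'] at he
  obtain ⟨y, hy, hdy⟩ := hq ⟨z, hw⟩ ⟨z', hw'⟩ (fun γ => Subtype.ext (hz γ)) (Subtype.ext hdz)
    (fun γ => Subtype.ext (hz' γ)) (Subtype.ext hdz') he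
  exact ⟨y.1, fun γ => congrArg Subtype.val (hy γ), y.2, congrArg Subtype.val hdy⟩

variable {N I : Type} [CommRing N] [LawRing N] [Fintype I]

/-- Descent, finiteness, for `N → T`. -/
theorem descentFin_N [DiscMod G T] [Framed T] (hT : ∀ a, HZero G T (a + 1))
    {ι : N →+* T} (hι : IsLawHom ι) {b : I → T} {i₀ : I} (hb : InvBasis G ι b i₀) (w : ℤ) (s : ℕ)
    (hM : HFin G (Prim T w) (s + 1)) :
    ∃ (Q : Type) (_ : Finite Q) (q : Cob N (s + 1) → Q), ∀ z z' : Cob N (s + 1),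
      Cob.IsWt w z → Cob.d (s + 1) z = 0 → Cob.IsWt w z' → Cob.d (s + 1) z' = 0 → q z = q z' →
      ∃ y : Cob N s, Cob.IsWt w y ∧ Cob.d s y = z - z' := by
  classical
  obtain ⟨Q, hQ, q, hq⟩ := descentFin_weight (G := G) hT w s hM
  refine ⟨Q, hQ, fun z => q (Cob.mapRing ι (s + 1) z), ?_⟩
  intro z z' hw hdz hw' hdz' he
  obtain ⟨y, hy, -, hdy⟩ := hq _ _ (fun γ => hb.fix_cob z γ) (Cob.IsWt.mapRing hι hw)
    (by rw [← Cob.mapRing_d hι, hdz, map_zero]) (fun γ => hb.fix_cob z' γ)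
    (Cob.IsWt.mapRing hι hw') (by rw [← Cob.mapRing_d hι, hdz', map_zero]) he
  obtain ⟨c, rfl⟩ := hb.exist_cob y hy
  rw [← map_sub] at hdy
  have h1 : Cob.d s (∑ i, MvPolynomial.C (b i) * Cob.mapRing ι s (c i)) =
      ∑ i, MvPolynomial.C (b i) * Cob.mapRing ι (s + 1) (Cob.d s (c i)) := by
    rw [map_sum]
    refine Finset.sum_congr rfl fun i _ => ?_
    rw [Cob.d_const_mul (fun B _ g x => hb.const B g x i), Cob.mapRing_d hι]
  have h2 : Cob.mapRing ι (s + 1) (z - z') =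
      ∑ i, MvPolynomial.C (b i) * Cob.mapRing ι (s + 1) (if i = i₀ then z - z' else 0) := by
    rw [Finset.sum_eq_single i₀]
    · rw [if_pos rfl, hb.one, MvPolynomial.C_1, one_mul]
    · intro i _ hi
      rw [if_neg hi, map_zero, mul_zero]
    · intro hi
      exact absurd (Finset.mem_univ i₀) hi
  rw [h1, h2] at hdy
  have h3 := congrFun (hb.uniq_cob _ _ hdy) i₀
  rw [if_pos rfl] at h3
  refine ⟨Cob.pr N s w (c i₀), Cob.isWt_pr w _, ?_⟩
  rw [← Cob.pr_d, h3, map_sub, Cob.pr_eq_self hw, Cob.pr_eq_self hw']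

/-- Degree zero. -/
theorem descentFin_zero {ι : N →+* T} (hι : IsLawHom ι) {b : I → T} {i₀ : I}
    (hb : InvBasis G ι b i₀) (w : ℤ) (hM : Finite (Prim T w)) :
    {z : Cob N 0 | Cob.IsWt w z ∧ Cob.d 0 z = 0}.Finite := by
  classical
  have hinj : Function.Injective (Cob.mapRing ι 0 : Cob N 0 → Cob T 0) := by
    intro x y hxy
    have h1 : ∀ x : Cob N 0, Cob.mapRing ι 0 x =
        ∑ i, MvPolynomial.C (b i) * Cob.mapRing ι 0 (if i = i₀ then x else 0) := by
      intro x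
      rw [Finset.sum_eq_single i₀]
      · rw [if_pos rfl, hb.one, MvPolynomial.C_1, one_mul]
      · intro i _ hi
        rw [if_neg hi, map_zero, mul_zero]
      · intro hi
        exact absurd (Finset.mem_univ i₀) hi
    rw [h1 x, h1 y] at hxy
    have h2 := congrFun (hb.uniq_cob _ _ hxy) i₀
    rwa [if_pos rfl, if_pos rfl] at h2
  let f : {z : Cob N 0 | Cob.IsWt w z ∧ Cob.d 0 z = 0} → Prim T w := fun z =>
    ⟨⟨Cob.mapRing ι 0 z.1, Cob.IsWt.mapRing hι z.2.1⟩, by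
      change Cob.d 0 (Cob.mapRing ι 0 z.1) = 0
      rw [← Cob.mapRing_d hι, z.2.2, map_zero]⟩
  have hf : Function.Injective f := by
    intro x y hxy
    apply Subtype.ext
    exact hinj (congrArg (fun t : Prim T w => t.1.1) hxy)
  exact Set.finite_coe_iff.1 (Finite.of_injective f hf)

end Weight

end Vale.Agent.P261.E
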