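import Vale.Agent.P251.C.Main

/-!
# P261: finiteness of the cohomology of profinite groups with discrete coefficients

`HFin G M s`: the group `H^s(G; M)` is finite.
* `HFin.left`: long exact sequence;
* `HFin.of_res`: resolutions by acyclic modules with finite invariants;
* `HFin.ind`: Shapiro's lemma for open subgroups;
* `hFin_virtUnif`: finiteness for virtually uniform groups and finite coefficients.
-/

set_option linter.unusedSectionVars false

open Finset Function

namespace Vale.Agent.P261.E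

open Vale.Agent.P251.C Vale.Agent.P251.I

/-- `H^s(G; M)` is finite. -/
def HFin (G M : Type) [Group G] [TopologicalSpace G] [AddCommGroup M] [DistribMulAction G M] :
    ℕ → Prop
  | 0 => {m : M | ∀ g : G, g • m = m}.Finite
  | s + 1 => ∃ (T : Type) (_ : Finite T) (q : ((Fin (s + 2) → G) → M) → T),
      ∀ F F' : (Fin (s + 2) → G) → M, IsCoch G F → dd F = 0 → IsCoch G F' → dd F' = 0 →
        q F = q F' → ∃ Y : (Fin (s + 1) → G) → M, IsCoch G Y ∧ dd Y = F - F'

section les

variable {G : Type} [Group G] [TopologicalSpace G]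

theorem HFin.of_hZero {M : Type} [AddCommGroup M] [DistribMulAction G M] {s : ℕ}
    (h : HZero G M (s + 1)) : HFin G M (s + 1) := by
  refine ⟨Unit, inferInstance, fun _ => (), fun F F' hF hd hF' hd' _ => ?_⟩
  exact h (F - F') (hF.sub hF') (by rw [dd_sub, hd, hd', sub_zero])

/-- A cocycle of degree `0` is an invariant element. -/
theorem cocycle_zero {M : Type} [AddCommGroup M] [DistribMulAction G M]
    {F : (Fin 1 → G) → M} (hF : IsCoch G F) (hd : dd F = 0) :
    ∃ m : M, (∀ g : G, g • m = m) ∧ ∀ x, F x = m := by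
  have h1 : ∀ x y : Fin 1 → G, F x = F y := by
    intro x y
    have h2 := congrFun hd (Fin.cons (x 0) y : Fin 2 → G)
    rw [dd_cons, dd_one, Pi.zero_apply, sub_eq_zero] at h2
    rw [h2]
    congr 1
    funext i
    refine Fin.cases ?_ (fun i => i.elim0) i
    simp
  refine ⟨F fun _ => 1, fun g => ?_, fun x => h1 x _⟩
  rw [← hF.equi g (fun _ => 1), h1 (fun _ => g * 1) (fun _ => 1)]

variable [IsTopologicalGroup G]
  {A B C : Type} [AddCommGroup A] [AddCommGroup B] [AddCommGroup C]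
  [DistribMulAction G A] [DistribMulAction G B] [DistribMulAction G C] [DiscMod G B]

theorem HFin.lift (q : B →+[G] C) (hq : Function.Surjective q) {s : ℕ} (hC : HFin G C s) :
    ∃ (T : Type) (_ : Finite T) (r : ((Fin (s + 1) → G) → C) → T),
      ∀ F F' : (Fin (s + 1) → G) → C, IsCoch G F → dd F = 0 → IsCoch G F' → dd F' = 0 →
        r F = r F' → ∃ W : (Fin (s + 1) → G) → B, IsCoch G W ∧ dd W = 0 ∧
          ∀ x, q (W x) = F x - F' x := by
  classical
  rcases s with _ | s
  · have hC' : {m : C | ∀ g : G, g • m = m}.Finite := hC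
    refine ⟨Option {m : C | ∀ g : G, g • m = m}, ?_, fun F =>
      if h : ∀ g : G, g • F (fun _ => 1) = F (fun _ => 1) then some ⟨F (fun _ => 1), h⟩ else none,
      ?_⟩
    · have := hC'.to_subtype
      infer_instance
    · intro F F' hF hd hF' hd' hr
      obtain ⟨m, hm, hFm⟩ := cocycle_zero hF hd
      obtain ⟨m', hm', hFm'⟩ := cocycle_zero hF' hd'
      have e1 : ∀ g : G, g • F (fun _ => 1) = F (fun _ => 1) := by
        intro g; rw [hFm]; exact hm g
      have e2 : ∀ g : G, g • F' (fun _ => 1) = F' (fun _ => 1) := by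
        intro g; rw [hFm']; exact hm' g
      beta_reduce at hr
      rw [dif_pos e1, dif_pos e2] at hr
      have e3 := congrArg Subtype.val (Option.some.inj hr)
      simp only [hFm, hFm'] at e3
      refine ⟨0, IsCoch.zero, dd_zero, fun x => ?_⟩
      rw [hFm, hFm', e3, sub_self]
      exact map_zero q
  · obtain ⟨T, hT, r, hr⟩ := hC
    refine ⟨T, hT, r, fun F F' hF hd hF' hd' hrr => ?_⟩
    obtain ⟨Z, hZ, hdZ⟩ := hr F F' hF hd hF' hd' hrr
    obtain ⟨Z', hZ', hqZ'⟩ := hZ.lift q hq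
    refine ⟨dd Z', hZ'.dd, dd_dd _, fun x => ?_⟩
    have h1 := congrFun (dd_mapG q Z') x
    rw [← h1, show (fun x => q (Z' x)) = Z from funext hqZ', hdZ]
    rfl

/-- Long exact sequence: left term. -/
theorem HFin.left (i : A →+[G] B) (q : B →+[G] C) (hi : Function.Injective i)
    (hq : Function.Surjective q) (hq0 : ∀ a, q (i a) = 0) (hex : ∀ b, q b = 0 → ∃ a, i a = b)
    {s : ℕ} (hB : HFin G B (s + 1)) (hC : HFin G C s) : HFin G A (s + 1) := by
  classical
  obtain ⟨TB, hTB, qB, hqB⟩ := hB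
  obtain ⟨TC, hTC, qC, hqC⟩ := HFin.lift (B := B) q hq hC
  let P : TB → ((Fin (s + 2) → G) → A) → Prop := fun t F =>
    IsCoch G F ∧ dd F = 0 ∧ qB (i ∘ F) = t
  let r : TB → ((Fin (s + 2) → G) → A) := fun t =>
    if h : ∃ F, P t F then h.choose else 0
  have hr : ∀ F, IsCoch G F → dd F = 0 → P (qB (i ∘ F)) (r (qB (i ∘ F))) := by
    intro F hF hd
    have h : ∃ F', P (qB (i ∘ F)) F' := ⟨F, hF, hd, rfl⟩
    simp only [r, dif_pos h]
    exact h.choose_spec
  have hdi : ∀ F : (Fin (s + 2) → G) → A, dd F = 0 → dd (i ∘ F) = 0 := by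
    intro F hd
    rw [show (i ∘ F) = fun x => i (F x) from rfl, dd_mapG, hd]
    funext x
    simp
  have hY : ∀ F : (Fin (s + 2) → G) → A, ∃ Y : (Fin (s + 1) → G) → B, IsCoch G F → dd F = 0 →
      IsCoch G Y ∧ dd Y = i ∘ F - i ∘ (r (qB (i ∘ F))) := by
    intro F
    by_cases h : IsCoch G F ∧ dd F = 0
    · obtain ⟨hR1, hR2, hR3⟩ := hr F h.1 h.2
      obtain ⟨Y, hY⟩ := hqB (i ∘ F) (i ∘ (r (qB (i ∘ F)))) (h.1.map i) (hdi F h.2)
        (hR1.map i) (hdi _ hR2) hR3.symm
      exact ⟨Y, fun _ _ => hY⟩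
    · exact ⟨0, fun h1 h2 => absurd ⟨h1, h2⟩ h⟩
  choose Y hY using hY
  refine ⟨TB × TC, inferInstance, fun F => (qB (i ∘ F), qC (q ∘ Y F)), ?_⟩
  intro F F' hF hd hF' hd' he
  have e1 : qB (i ∘ F) = qB (i ∘ F') := congrArg Prod.fst he
  have e2 : qC (q ∘ Y F) = qC (q ∘ Y F') := congrArg Prod.snd he
  obtain ⟨y1, y2⟩ := hY F hF hd
  obtain ⟨y1', y2'⟩ := hY F' hF' hd'
  have hdq : ∀ F, IsCoch G F → dd F = 0 → dd (q ∘ Y F) = 0 := by
    intro F hF hd
    obtain ⟨y1, y2⟩ := hY F hF hd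
    rw [show (q ∘ Y F) = fun x => q (Y F x) from rfl, dd_mapG, y2]
    funext x
    simp [hq0]
  obtain ⟨W, hW, hdW, hqW⟩ := hqC (q ∘ Y F) (q ∘ Y F') (y1.map q) (hdq F hF hd) (y1'.map q)
    (hdq F' hF' hd') e2
  obtain ⟨Z, hZ, hiZ⟩ := IsCoch.of_inj i hi ((y1.sub y1').sub hW) (by
    intro x
    apply hex
    simp only [Pi.sub_apply, map_sub, hqW, Function.comp_apply, sub_self])
  refine ⟨Z, hZ, ?_⟩
  funext x
  apply hi
  have h1 := congrFun (dd_mapG i Z) x
  rw [← h1, show (fun x => i (Z x)) = Y F - Y F' - W from funext hiZ, dd_sub, dd_sub, y2, y2',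
    hdW, e1]
  simp

/-- Dimension shifting along a resolution by acyclic modules with finite invariants. -/
theorem HFin.of_res : ∀ (s : ℕ) (M : Type) [AddCommGroup M] [DistribMulAction G M]
    (J : ℕ → Type) [∀ i, AddCommGroup (J i)] [∀ i, DistribMulAction G (J i)]
    [∀ i, DiscMod G (J i)] (ε : M →+[G] J 0) (δ : ∀ i, J i →+[G] J (i + 1))
    (_ : Function.Injective ε) (_ : ∀ x, δ 0 x = 0 ↔ ∃ m, ε m = x)
    (_ : ∀ i x, δ (i + 1) x = 0 ↔ ∃ y, δ i y = x)
    (_ : ∀ i s, HZero G (J i) (s + 1))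
    (_ : ∀ i, {x : J i | ∀ g : G, g • x = x}.Finite), HFin G M s := by
  intro s
  induction s with
  | zero =>
    intro M _ _ J _ _ _ ε δ hε hex0 hex hJ hJ0
    change {m : M | ∀ g : G, g • m = m}.Finite
    refine Set.Finite.subset ((hJ0 0).preimage (f := ε) hε.injOn) ?_
    intro m hm g
    rw [← map_smul, hm g]
  | succ s ih =>
    intro M _ _ J _ _ _ ε δ hε hex0 hex hJ hJ0
    let Z : Type := ↥((δ 1 : J 1 →+ J 2).ker)
    have hst : ∀ (g : G) (a : J 1), a ∈ (δ 1 : J 1 →+ J 2).ker →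
        g • a ∈ (δ 1 : J 1 →+ J 2).ker := by
      intro g a ha
      have ha' : δ 1 a = 0 := ha
      change δ 1 (g • a) = 0
      rw [map_smul, ha', smul_zero]
    let _ : DistribMulAction G Z := subAct _ hst
    let εZ : Z →+[G] J 1 :=
      { toFun := fun z => z.1
        map_smul' := fun g z => rfl
        map_zero' := rfl
        map_add' := fun a b => rfl }
    have key : HFin G Z s := ih Z (fun i => J (i + 1)) εZ (fun i => δ (i + 1))
      Subtype.val_injective (fun x => ⟨fun h => ⟨⟨x, h⟩, rfl⟩, fun ⟨m, hm⟩ => hm ▸ m.2⟩)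
      (fun i x => hex (i + 1) x) (fun i s => hJ (i + 1) s) (fun i => hJ0 (i + 1))
    let qZ : J 0 →+[G] Z :=
      { toFun := fun x => ⟨δ 0 x, (hex 0 _).2 ⟨x, rfl⟩⟩
        map_smul' := fun g z => Subtype.ext (map_smul (δ 0) g z)
        map_zero' := Subtype.ext (map_zero (δ 0))
        map_add' := fun a b => Subtype.ext (map_add (δ 0) a b) }
    refine HFin.left (G := G) ε qZ hε ?_ ?_ ?_ (HFin.of_hZero (hJ 0 s)) key
    · intro z
      obtain ⟨y, hy⟩ := (hex 0 z.1).1 z.2
      exact ⟨y, Subtype.ext hy⟩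
    · intro a
      exact Subtype.ext ((hex0 _).2 ⟨a, rfl⟩)
    · intro b hb
      exact (hex0 b).1 (congrArg Subtype.val hb)

end les

end Vale.Agent.P261.E
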