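import Vale.Agent.P261.H321.E.HFin

/-!
# P261: finiteness of the cohomology of virtually uniform groups
-/

set_option linter.unusedSectionVars false

open Finset Function

namespace Vale.Agent.P261.E

open Vale.Agent.P251.C Vale.Agent.P251.I NpData

section unif

variable {p d : ℕ} [Fact p.Prime]

theorem isUnif_top {U : Type} [Group U] [TopologicalSpace U] (hU : IsUnif p d U) :
    IsUnif p d (⊤ : Subgroup U) :=
  IsUnif.of_equiv hU Subgroup.topEquiv continuous_subtype_val
    (Continuous.subtype_mk continuous_id _)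

/-- all points of the induced space are in the orbit of one of finitely many points -/
theorem exists_reps {U : Type} [Group U] :
    ∃ R : Finset (Fin d) → IndSp (⊤ : Subgroup U) (KX d (⊤ : Subgroup U)),
      ∀ x, ∃ (T : Finset (Fin d)) (g : U), g • x = R T := by
  have hsub : Subsingleton (U ⧸ (⊤ : Subgroup U)) := QuotientGroup.subsingleton_quotient_top
  refine ⟨fun T => IndSp.mk fun _ => ⟨T, 1⟩, fun x => ?_⟩
  let c : U ⧸ (⊤ : Subgroup U) := ((1 : U) : U ⧸ (⊤ : Subgroup U))
  let a : U := Quotient.out c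
  let v : (⊤ : Subgroup U) := (x.fn c).2
  refine ⟨(x.fn c).1, a * (v : U)⁻¹ * a⁻¹, ?_⟩
  refine IndSp.ext fun e => ?_
  obtain rfl : e = c := Subsingleton.elim _ _
  rw [IndSp.smul_fn, IndSp.fn_mk, Subsingleton.elim ((a * (v : U)⁻¹ * a⁻¹)⁻¹ • c) c, smul_KX]
  refine congrArg (Sigma.mk _) ?_
  apply Subtype.ext
  have h1 : ((cos (⊤ : Subgroup U) (a * (v : U)⁻¹ * a⁻¹) c : (⊤ : Subgroup U)) : U) =
      (Quotient.out c)⁻¹ * ((a * (v : U)⁻¹ * a⁻¹) *
        Quotient.out ((a * (v : U)⁻¹ * a⁻¹)⁻¹ • c)) := rfl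
  rw [Subsingleton.elim ((a * (v : U)⁻¹ * a⁻¹)⁻¹ • c) c] at h1
  rw [Subgroup.coe_mul, h1]
  change (a⁻¹ * (a * (v : U)⁻¹ * a⁻¹ * a)) * (v : U) = 1
  group

/-- Finiteness for uniform groups and finite coefficients. -/
theorem hFin_unif (hp2 : p ≠ 2) {U : Type} [Group U] [TopologicalSpace U]
    [IsTopologicalGroup U] [CompactSpace U] [T2Space U] [TotallyDisconnectedSpace U]
    (hU : IsUnif p d U) (M : Type) [AddCommGroup M] [DistribMulAction U M] [DiscMod U M]
    [Finite M] (hM : ∀ m : M, p • m = 0) (s : ℕ) : HFin U M s := by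
  classical
  have hcT : CompactSpace (⊤ : Subgroup U) := isCompact_iff_compactSpace.1 isCompact_univ
  obtain ⟨ρ, hρ, hd⟩ := exists_resData hp2 (isUnif_top hU)
  have hc : Nat.card (U ⧸ (⊤ : Subgroup U)) = 1 := by
    rw [← Subgroup.index_eq_card, Subgroup.index_top]
  have hO : IsOpen ((⊤ : Subgroup U) : Set U) := isOpen_univ
  have : Finite (U ⧸ (⊤ : Subgroup U)) := Subgroup.quotient_finite_of_isOpen _ hO
  let _ : Fintype (U ⧸ (⊤ : Subgroup U)) := Fintype.ofFinite _
  let _ : Module (ZMod p) M := AddCommGroup.zmodModule hM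
  have : SMulCommClass U (ZMod p) M := smulComm_zmod
  have : ContinuousSMul U (IndSp (⊤ : Subgroup U) (KX d (⊤ : Subgroup U))) :=
    continuousSMul_indSp hO
  have hns : ∀ (g : U) (c e : U ⧸ (⊤ : Subgroup U)), g • c = e → g • e = c → c = e :=
    noSwap (⊤ : Subgroup U) (by rw [hc]; exact odd_one)
  have : DiscMod U (LC (IndSp (⊤ : Subgroup U) (KX d (⊤ : Subgroup U))) M) := discMod_LC
  let J : ℕ → Type := fun i => JMod (⊤ : Subgroup U) ρ M i
  have hst : ∀ i (g : U) (a : LC (IndSp (⊤ : Subgroup U) (KX d (⊤ : Subgroup U))) M),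
      a ∈ JMod (⊤ : Subgroup U) ρ M i → g • a ∈ JMod (⊤ : Subgroup U) ρ M i :=
    fun i g a ha => smul_mem_JMod ρ hρ g ha
  let _ : ∀ i, DistribMulAction U (J i) := fun i => subAct _ (hst i)
  have : ∀ i, DiscMod U (J i) := fun i => discMod_sub _ (hst i)
  let ε : M →+[U] J 0 :=
    { toFun := fun m => ⟨augJ ρ (⊤ : Subgroup U) M m, augJ_mem ρ m⟩
      map_smul' := fun g m => Subtype.ext (augJ_smul ρ hρ g m)
      map_zero' := Subtype.ext (map_zero (augJ ρ (⊤ : Subgroup U) M))
      map_add' := fun a b => Subtype.ext (map_add (augJ ρ (⊤ : Subgroup U) M) a b) }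
  let δ : ∀ i, J i →+[U] J (i + 1) := fun i =>
    { toFun := fun z => ⟨dJ ρ (⊤ : Subgroup U) M z.1, dJ_mem ρ z.2⟩
      map_smul' := fun g z => Subtype.ext (dJ_smul ρ hρ g z.1)
      map_zero' := Subtype.ext (map_zero (dJ ρ (⊤ : Subgroup U) M))
      map_add' := fun a b => Subtype.ext (map_add (dJ ρ (⊤ : Subgroup U) M) a.1 b.1) }
  refine HFin.of_res (G := U) s M J ε δ ?_ ?_ ?_ ?_ ?_
  · intro a b hab
    exact augJ_injective (ZMod p) ρ (congrArg Subtype.val hab)
  · intro x
    constructor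
    · intro h
      obtain ⟨m, hm⟩ := exactJ_zero ρ hns x.2 (congrArg Subtype.val h)
      exact ⟨m, Subtype.ext hm⟩
    · rintro ⟨m, rfl⟩
      exact Subtype.ext (dJ_augJ ρ m)
  · intro i x
    constructor
    · intro h
      obtain ⟨y, hy, hyx⟩ := exactJ_pos ρ hns x.2 (congrArg Subtype.val h)
      exact ⟨⟨y, hy⟩, Subtype.ext hyx⟩
    · rintro ⟨y, rfl⟩
      exact Subtype.ext (dJ_dJ ρ hns y.1)
  · intro i s
    have hfree : ∀ (u : (⊤ : Subgroup U)) (z : KX d (⊤ : Subgroup U)), u • z = z → u = 1 :=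
      fun u z h => free_KX u z h
    have h1 : HMapZero U (s + 1) (LC.mapG (IndSp (⊤ : Subgroup U) (KX d (⊤ : Subgroup U)))
        (DistribMulActionHom.id U : M →+[U] M)) := by
      refine lemmaX_free _ fun g x hx => ?_
      exact stab_inf hfree x (Subgroup.mem_top g) hx
    let ι : J i →+[U] LC (IndSp (⊤ : Subgroup U) (KX d (⊤ : Subgroup U))) M :=
      { toFun := fun z => z.1
        map_smul' := fun g z => rfl
        map_zero' := rfl
        map_add' := fun a b => rfl }
    let π : LC (IndSp (⊤ : Subgroup U) (KX d (⊤ : Subgroup U))) M →+[U] J i :=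
      { toFun := fun F => ⟨cmpJ ρ (⊤ : Subgroup U) M i F, cmpJ_mem ρ i F⟩
        map_smul' := fun g F => Subtype.ext (cmpJ_smul ρ hρ i g F)
        map_zero' := Subtype.ext (map_zero (cmpJ ρ (⊤ : Subgroup U) M i))
        map_add' := fun a b => Subtype.ext (map_add (cmpJ ρ (⊤ : Subgroup U) M i) a b) }
    have h2 := (h1.comp_right ι).comp_left π
    have h3 : (π ∘ (LC.mapG (IndSp (⊤ : Subgroup U) (KX d (⊤ : Subgroup U)))
        (DistribMulActionHom.id U : M →+[U] M)) ∘ ι : J i → J i) = id := by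
      funext z
      exact Subtype.ext (cmpJ_of_mem ρ z.2)
    rw [h3] at h2
    exact hzero_iff.2 h2
  · intro i
    obtain ⟨R, hR⟩ := exists_reps (d := d) (U := U)
    let e : J i → (Finset (Fin d) → M) := fun z T => z.1 (R T)
    refine Set.Finite.of_finite_image (f := e) (Set.toFinite _) ?_
    intro z hz z' hz' hzz
    apply Subtype.ext
    refine LC.ext fun x => ?_
    obtain ⟨T, g, hg⟩ := hR x
    have h1 : ∀ z : J i, (∀ g : U, g • z = z) → z.1 x = g⁻¹ • z.1 (R T) := by
      intro z hz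
      have h2 := congrArg (fun y : J i => y.1 x) (hz g⁻¹)
      change (g⁻¹ • z.1) x = z.1 x at h2
      rw [LC.smul_apply, inv_inv, hg] at h2
      exact h2.symm
    rw [h1 z hz, h1 z' hz']
    exact congrArg (g⁻¹ • ·) (congrFun hzz T)

end unif

end Vale.Agent.P261.E
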