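import Vale.Agent.P251.S.LimComplex
import Vale.Agent.P251.S.ExactCouple
import Mathlib.CategoryTheory.CofilteredSystem
import Mathlib.CategoryTheory.Functor.OfSequence

/-!
# P261: limits of towers of complexes with finite cohomology; vanishing of the abutment
-/

open CategoryTheory Opposite

universe u v

namespace Vale.Agent.P261.E

open Vale.Agent.P251.S

section couple

variable (C : Couple.{u, v})

/-- The cohomology of the `E_1`-term vanishes at `(s, n)`. -/
def ZeroE : ∀ (_ : ℕ) (_ : ℤ), Prop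
  | 0, n => ∀ z : C.E 0 n, C.IsCocycle z → z = 0
  | s + 1, n => C.Van s n

variable {C}

theorem exists_iN {n : ℤ} (hF : ∀ s, ZeroE C s n) (r : ℕ) (y : C.D 0 n) :
    ∃ w, y = C.iN 0 n r w := by
  induction r with
  | zero => exact ⟨y, rfl⟩
  | succ r ih =>
    obtain ⟨x, hx⟩ := ih
    rcases r with _ | r
    · obtain ⟨w, hw⟩ := C.exact_j 0 n x (hF 0 _ (C.isCocycle_j x))
      refine ⟨w, ?_⟩
      rw [Couple.iN_succ, hx]
      exact congrArg _ hw.symm
    · obtain ⟨e, he⟩ := hF (0 + r + 1) _ (C.isCocycle_j x)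
      rw [Couple.d_apply] at he
      obtain ⟨w, hw⟩ := C.exact_j (0 + r + 1) n (x - C.k (0 + r) (n + 1) n rfl e) (by
        rw [map_sub, he]
        exact sub_self _)
      refine ⟨w, ?_⟩
      have h1 : C.iN 0 n (r + 1 + 1) w = C.iN 0 n (r + 1) (C.i (0 + r + 1) n w) := rfl
      rw [h1, hw]
      have h2 : ∀ y : C.D (0 + r + 1) n, C.iN 0 n (r + 1) y = C.iN 0 n r (C.i (0 + r) n y) :=
        fun _ => rfl
      rw [h2, map_sub (C.i (0 + r) n) x, C.i_k, sub_zero]
      exact hx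

/-- Vanishing of the abutment. -/
theorem zero_D0 {n : ℤ} (hF : ∀ s, ZeroE C s n) (s₀ : ℕ)
    (hi : ∀ s, s₀ ≤ s → ∀ y : C.D (s + 1) n, C.i s n y = 0) (y : C.D 0 n) : y = 0 := by
  obtain ⟨w, hw⟩ := exists_iN hF (s₀ + 1) y
  have h1 : C.iN 0 n (s₀ + 1) w = C.iN 0 n s₀ (C.i (0 + s₀) n w) := rfl
  rw [hw, h1, hi (0 + s₀) (by omega), map_zero]

end couple

section lim

variable (T : TowerCx.{u})

/-- If `H^{s+1}(C_j)` is finite and `H^{s+2}(C_j) = 0` for all `j`, and the transition maps in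
degree `s` are surjective, then every cocycle of degree `s + 2` of the limit is a coboundary. -/
theorem lim_cobdy_fin {s : ℕ} (hsurj : ∀ j, Function.Surjective (T.r s j))
    (h1 : ∀ j, ∃ (Q : Type) (_ : Finite Q) (q : T.C (s + 1) j → Q), ∀ x x' : T.C (s + 1) j,
      T.d (s + 1) j x = 0 → T.d (s + 1) j x' = 0 → q x = q x' →
      ∃ y : T.C s j, T.d s j y = x - x')
    (z : ∀ j, T.C (s + 2) j) (hz : z ∈ T.lim (s + 2))
    (hdz : ∀ j, ∃ y : T.C (s + 1) j, T.d (s + 1) j y = z j) :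
    ∃ y ∈ T.lim (s + 1), ∀ j, T.d (s + 1) j (y j) = z j := by
  classical
  choose b hb using hdz
  choose Q hQ q hq using h1
  let Y : ℕ → Type u := fun j => {y : T.C (s + 1) j // T.d (s + 1) j y = z j}
  let R : ∀ j, Y j → Y j → Prop := fun j a a' => ∃ y : T.C s j, T.d s j y = a.1 - a'.1
  have hR : ∀ j, Equivalence (R j) := fun j =>
    { refl := fun a => ⟨0, by simp⟩
      symm := fun {a a'} ⟨y, hy⟩ => ⟨-y, by rw [map_neg, hy]; abel⟩
      trans := fun {a a' a''} ⟨y, hy⟩ ⟨y', hy'⟩ => ⟨y + y', by rw [map_add, hy, hy']; abel⟩ }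
  let St : ∀ j, Setoid (Y j) := fun j => ⟨R j, hR j⟩
  let K : ℕ → Type u := fun j => Quotient (St j)
  let ρ : ∀ j, Y (j + 1) → Y j := fun j a => ⟨T.r (s + 1) j a.1, by rw [T.d_r, a.2, hz j]⟩
  have hρ : ∀ j (a a' : Y (j + 1)), R (j + 1) a a' → R j (ρ j a) (ρ j a') := by
    rintro j a a' ⟨y, hy⟩
    refine ⟨T.r s j y, ?_⟩
    rw [T.d_r, hy, map_sub]
  let κ : ∀ j, K (j + 1) → K j := fun j => Quotient.map' (s₁ := St (j + 1)) (s₂ := St j) (ρ j)
    (fun a a' h => hρ j a a' h)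
  have hfin : ∀ j, Finite (K j) := by
    intro j
    have := hQ j
    refine Finite.of_injective (β := Q j) (fun k => q j ((Quotient.out k).1 - b j)) ?_
    intro k k' hk
    obtain ⟨y, hy⟩ := hq j _ _ (by rw [map_sub, (Quotient.out k).2, hb, sub_self])
      (by rw [map_sub, (Quotient.out k').2, hb, sub_self]) hk
    rw [← Quotient.out_eq k, ← Quotient.out_eq k']
    refine Quotient.sound (s := St j) ⟨y, ?_⟩
    rw [hy]
    abel
  have hne : ∀ j, Nonempty (K j) := fun j => ⟨Quotient.mk (St j) ⟨b j, hb j⟩⟩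
  let Φ : ℕᵒᵖ ⥤ Type u := Functor.ofOpSequence (X := K) (fun j => TypeCat.ofHom (κ j))
  have hf : ∀ j : ℕᵒᵖ, Finite (Φ.obj j) := fun j => hfin j.unop
  have hn : ∀ j : ℕᵒᵖ, Nonempty (Φ.obj j) := fun j => hne j.unop
  obtain ⟨σ, hσ⟩ := nonempty_sections_of_finite_inverse_system Φ
  have hσ' : ∀ j : ℕ, κ j (σ (op (j + 1))) = σ (op j) := by
    intro j
    have h := hσ (homOfLE (Nat.le_add_right j 1)).op
    rw [show Φ.map (homOfLE (Nat.le_add_right j 1)).op = TypeCat.ofHom (κ j) from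
      Functor.ofOpSequence_map_homOfLE_succ _ j] at h
    exact h
  let y' : ∀ j, Y j := fun j => Quotient.out (σ (op j))
  have hdiff : ∀ j, ∃ w : T.C s j, T.d s j w = T.r (s + 1) j (y' (j + 1)).1 - (y' j).1 := by
    intro j
    have h := hσ' j
    rw [← Quotient.out_eq (σ (op (j + 1))), ← Quotient.out_eq (σ (op j))] at h
    exact Quotient.exact (s := St j) h
  choose w hw using hdiff
  have hv : ∃ v : ∀ j, T.C s j, ∀ j, T.r s j (v (j + 1)) = v j + w j := by
    choose f hf using hsurj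
    let v : ∀ j, T.C s j := fun j => Nat.rec (motive := fun j => T.C s j) 0
      (fun j vj => f j (vj + w j)) j
    exact ⟨v, fun j => hf j _⟩
  obtain ⟨v, hv⟩ := hv
  refine ⟨fun j => (y' j).1 - T.d s j (v j), ?_, fun j => by
    rw [map_sub, T.d_d, sub_zero, (y' j).2]⟩
  intro j
  have : T.r (s + 1) j (T.d s (j + 1) (v (j + 1))) = T.d s j (v j) + T.d s j (w j) := by
    rw [← T.d_r, hv, map_add]
  simp only [map_sub, this, hw]
  abel

/-- Degree one. -/
theorem lim_cobdy_one (h0 : ∀ j (x : T.C 0 j), T.d 0 j x = 0 → x = 0)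
    (z : ∀ j, T.C 1 j) (hz : z ∈ T.lim 1) (hdz : ∀ j, ∃ y : T.C 0 j, T.d 0 j y = z j) :
    ∃ y ∈ T.lim 0, ∀ j, T.d 0 j (y j) = z j := by
  choose b hb using hdz
  refine ⟨b, fun j => ?_, hb⟩
  rw [← sub_eq_zero]
  refine h0 j _ ?_
  rw [map_sub, T.d_r, hb, hb, hz j, sub_self]

end lim

end Vale.Agent.P261.E
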