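import Vale.Agent.P257.H545.FinalP
import Vale.Agent.P257.H314.Assemble

/-!
# P261 (helper321): the Smith-Toda complexes `V(2)` at `p ≥ 5` and `V(3)` at `p = 7`
-/

open CategoryTheory MonoidalCategory Limits Pretriangulated

set_option linter.unusedSectionVars false

universe v u

namespace Vale.Agent.P261.E

open Vale.Agent.P251 Vale.Agent.P251.T Vale.Agent.P251.F Vale.Agent.P257.H314
  Vale.Agent.P257.H545 Vale.Agent.P257.H712

section alg

variable {p : ℕ} [hp : Fact p.Prime]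

theorem stab_of_bound {s W : ℕ} (h : ∀ x : Vale.Agent.P257.H327.Mon, x.s = s → x.W p ≠ W) :
    StabVan p s (W : ℤ) :=
  (cmpP (infCmp p)).stabVan_of_van ((van_iff _ _).2 (boundP s W h))

theorem stab_of_line {s W : ℕ} (h : 2 * W + (p - 2) < p * s) : StabVan p s (W : ℤ) := by
  refine stab_of_bound fun x hs hW => ?_
  have h1 := Vale.Agent.P257.H327.Mon.line hp.out.two_le x
  rw [hs, hW] at h1
  omega

/-- The vanishing statements for the unital products of `V(1)` and `V(2)`. -/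
theorem prodVan_low {h : ℕ} (hh : 1 ≤ h) (hc : h ≤ 2 ∧ 5 ≤ p ∨ h ≤ 3 ∧ 7 ≤ p) :
    ProdVan p h := by
  refine prodVan_of_stab hh (by omega) (by omega) fun A B hA hB hA' hB' k hk s hs => ?_
  have hAc : A.card ≤ h := by simpa using Finset.card_le_card hA
  have hBc : B.card ≤ h := by simpa using Finset.card_le_card hB
  have hA1 := hA'.card_pos
  have hAs : ∑ a ∈ A, Wn p a ≤ ∑ a ∈ Finset.range h, Wn p a :=
    Finset.sum_le_sum_of_subset hA
  have hBs : ∑ a ∈ B, Wn p a ≤ ∑ a ∈ Finset.range h, Wn p a :=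
    Finset.sum_le_sum_of_subset hB
  have e : (∑ a ∈ A, (Wn p a : ℤ) + ∑ b ∈ B, (Wn p b : ℤ) + k) =
      ((∑ a ∈ A, Wn p a + ∑ b ∈ B, Wn p b + k : ℕ) : ℤ) := by
    push_cast
    ring
  rw [e]
  refine stab_of_line ?_
  have h0 : p * s + p * (A.card + B.card - 1) = p * (2 * (p - 1) * k) := by
    rw [← hs, Nat.mul_add]
  rcases hc with ⟨h2, h5⟩ | ⟨h2, h5⟩
  · have hR : ∑ a ∈ Finset.range h, Wn p a ≤ 1 := by
      refine (Finset.sum_le_sum_of_subset (Finset.range_subset_range.2 h2)).trans ?_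
      simp [Wn, Finset.sum_range_succ]
    have h3 : p * (A.card + B.card - 1) ≤ p * 3 := Nat.mul_le_mul_left _ (by omega)
    have h4 : p * (8 * k) ≤ p * (2 * (p - 1) * k) :=
      Nat.mul_le_mul_left _ (Nat.mul_le_mul_right _ (by omega))
    have h6 : 5 * k ≤ p * k := Nat.mul_le_mul_right _ h5
    have h7 : p * 1 ≤ p * k := Nat.mul_le_mul_left _ hk
    have h8 : p * (8 * k) = 8 * (p * k) := by ring
    omega
  · have hR : ∑ a ∈ Finset.range h, Wn p a ≤ p + 2 := by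
      refine (Finset.sum_le_sum_of_subset (Finset.range_subset_range.2 h2)).trans ?_
      simp [Wn, Finset.sum_range_succ]
      omega
    have h3 : p * (A.card + B.card - 1) ≤ p * 5 := Nat.mul_le_mul_left _ (by omega)
    have h4 : p * (12 * k) ≤ p * (2 * (p - 1) * k) :=
      Nat.mul_le_mul_left _ (Nat.mul_le_mul_right _ (by omega))
    have h6 : 7 * k ≤ p * k := Nat.mul_le_mul_right _ h5
    have h7 : p * 1 ≤ p * k := Nat.mul_le_mul_left _ hk
    have h8 : p * (12 * k) = 12 * (p * k) := by ring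
    omega

/-- The vanishing statements for the lifts of `v_1` and `v_2`. -/
theorem liftVan_low {h : ℕ} (hh : 1 ≤ h) (h2 : h ≤ 2) (h5 : 5 ≤ p) : LiftVan p h := by
  refine liftVan_of_stab hh fun k hk => ?_
  have e : (Wn p h : ℤ) + k = ((Wn p h + k : ℕ) : ℤ) := by push_cast; ring
  rw [e]
  refine stab_of_line ?_
  have hR : Wn p h ≤ 1 + p := by
    refine (Wn_mono p h2).trans ?_
    simp [Wn, Finset.sum_range_succ]
  have h4 : p * (8 * k) ≤ p * (2 * (p - 1) * k) :=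
    Nat.mul_le_mul_left _ (Nat.mul_le_mul_right _ (by omega))
  have h6 : 5 * k ≤ p * k := Nat.mul_le_mul_right _ h5
  have h7 : p * 1 ≤ p * k := Nat.mul_le_mul_left _ hk
  have h8 : p * (8 * k) = 8 * (p * k) := by ring
  have h9 : p * (2 * (p - 1) * k + 1) = p * (2 * (p - 1) * k) + p := by ring
  omega

end alg

/-- The vanishing statement for the lift of `v_3` at `p = 7`. -/
theorem liftVan_seven [Fact (Nat.Prime 7)] : LiftVan 7 3 := by
  refine liftVan_of_stab (by norm_num) fun k hk => ?_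
  have e : (Wn 7 3 : ℤ) + k = ((57 + k : ℕ) : ℤ) := by
    simp [Wn, Finset.sum_range_succ]
  rw [e]
  refine stab_of_bound fun x hs hW => ?_
  have h1 := Vale.Agent.P257.H327.Mon.line (p := 7) (by norm_num) x
  rw [hs, hW] at h1
  obtain rfl : k = 1 := by omega
  have hW3 : x.W 7 < 7 ^ 3 := by rw [hW]; norm_num
  have es := Vale.Agent.P257.H327.Mon.s_eq3 (p := 7) (by norm_num) hW3
  have eW := Vale.Agent.P257.H327.Mon.W_eq3 (p := 7) (by norm_num) hW3
  rw [hs] at es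
  rw [hW] at eW
  have := x.e_nonneg (0, 0)
  have := x.e_nonneg (0, 1)
  have := x.e_nonneg (0, 2)
  have := x.e_nonneg (1, 0)
  have := x.e_nonneg (1, 1)
  have := x.e_nonneg (2, 0)
  have := x.e_le_one (0, 0)
  have := x.e_le_one (0, 1)
  have := x.e_le_one (0, 2)
  have := x.e_le_one (1, 0)
  have := x.e_le_one (1, 1)
  have := x.e_le_one (2, 0)
  have := x.m_nonneg (0, 0)
  have := x.m_nonneg (0, 1)
  have := x.m_nonneg (1, 0)
  push_cast at es eW
  have hX : x.e (0, 2) + x.e (1, 1) + x.e (2, 0) + x.m (0, 1) + x.m (1, 0) = 0 ∨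
      x.e (0, 2) + x.e (1, 1) + x.e (2, 0) + x.m (0, 1) + x.m (1, 0) = 1 := by omega
  have hY : x.e (0, 0) + x.e (1, 0) + x.e (2, 0) = 2 := by omega
  rcases hX with hX | hX
  · omega
  · have h8 : x.e (0, 1) + x.e (1, 0) + x.e (1, 1) + x.e (2, 0) + x.m (0, 0) + x.m (1, 0) = 1 := by
      omega
    omega

section top

variable {T : Type u} [Category.{v} T] [Preadditive T] [HasZeroObject T]
    [HasShift T ℤ] [∀ n : ℤ, (shiftFunctor T n).Additive] [Pretriangulated T]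
    [MonoidalCategory T] [SymmetricCategory T] [TensorTriangulated T] [HasCoproducts.{0} T]
    [MonoidalClosed T] [IsTriangulated T] [HasProducts.{0} T] [StableCat T]
    {D : I.MUData T} {p : ℕ} [Fact p.Prime] {C : T} {iC : 𝟙_ T ⟶ C}

/-- `V(2)` at `p ≥ 5`. -/
theorem exists_V2_low (h5 : 5 ≤ p) {δ : C ⟶ (𝟙_ T)⟦(1 : ℤ)⟧}
    (hC : Triangle.mk ((p : ℤ) • 𝟙 (𝟙_ T)) iC δ ∈ distTriang T) :
    ∃ (V : T) (i : 𝟙_ T ⟶ V), IsST D p iC 3 i := by
  obtain ⟨V₁, i₁, H₁⟩ : ∃ (V : T) (i : 𝟙_ T ⟶ V), IsST D p iC 1 i :=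
    ⟨C, iC, isST_one (D := D) (by omega) hC⟩
  obtain ⟨m₁⟩ := H₁.exists_uprod (prodVan_low le_rfl (Or.inl ⟨by norm_num, h5⟩))
  obtain ⟨x₁, hx₁⟩ := H₁.exists_det_v (liftVan_low le_rfl (by norm_num) h5)
  obtain ⟨V₂, i₂, H₂⟩ := H₁.next m₁ hx₁
  obtain ⟨m₂⟩ := H₂.exists_uprod (prodVan_low (by norm_num) (Or.inl ⟨le_rfl, h5⟩))
  obtain ⟨x₂, hx₂⟩ := H₂.exists_det_v (liftVan_low (by norm_num) le_rfl h5)
  exact H₂.next m₂ hx₂

/-- `V(3)` at `p = 7`. -/
theorem exists_V3_seven [Fact (Nat.Prime 7)] {δ : C ⟶ (𝟙_ T)⟦(1 : ℤ)⟧}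
    (hC : Triangle.mk (((7 : ℕ) : ℤ) • 𝟙 (𝟙_ T)) iC δ ∈ distTriang T) :
    ∃ (V : T) (i : 𝟙_ T ⟶ V), IsST D 7 iC 4 i := by
  refine exists_V3 (by norm_num) hC (fun h h1 h3 => prodVan_low h1 (Or.inr ⟨h3, le_rfl⟩))
    fun h h1 h3 => ?_
  by_cases h2 : h ≤ 2
  · exact liftVan_low h1 h2 (by norm_num)
  · obtain rfl : h = 3 := by omega
    exact liftVan_seven

end top

end Vale.Agent.P261.E
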