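import Vale.Agent.P261.H321.E.SparseT
import Vale.Agent.P261.H321.All

/-!
# P261 (helper321): the finite-type criterion with sparseness
-/

open CategoryTheory MonoidalCategory Limits Pretriangulated MonObj Cardinal

set_option linter.unusedSectionVars false

namespace Vale.Agent.P261.E

open Vale.Agent.P251 Vale.Agent.P251.St Vale.Agent.P251.St.SHCat Vale.Agent.P261.St
  Vale.Agent.P241.St
open Vale.Agent.P257.H314 Vale.Agent.P261.H321

variable {T : SHCat} {p : ℕ}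

/-- In the degrees in which the homotopy of `L_{K(n)} S` vanishes it is finitely generated. -/
theorem finGen_of_row (S : Susp T) [hp : Fact p.Prime] {n : ℕ} (hn : 1 ≤ n)
    (hd : ¬ (p - 1) ∣ n) {K : RingSp T} (hK : IsMorava S K p n) {X : T.C} (f : Hom T.one X)
    (hf : IsLoc K.obj f) (t : ℤ) (ht : Row p n t → FinGen p (Pi t X)) : FinGen p (Pi t X) := by
  by_cases hr : Row p n t
  · exact ht hr
  · obtain ⟨C₀, g₀, h₀, hC₀⟩ := distinguished_cocone_triangle ((p : ℤ) • 𝟙 (𝟙_ T.C))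
    have h0 := (sparse_sphere S hn hd hK f hf (C := C₀) (g := g₀) (h := h₀) hC₀ t hr).1
    have hpc : PComp p (Pi t X) := pcomp_of_local (char_of_morava S hn hK) hf.2 _
    have hss : Subsingleton (Pi t X) := ⟨fun a b => (h0 a).trans (h0 b).symm⟩
    have hfin : Finite (Pi t X) := inferInstance
    exact ⟨hpc.module, @Module.Finite.of_finite _ _ _ _ hpc.module hfin⟩

/-- The window criterion for the `K(n)`-local sphere, with sparseness, for all `n` with
`¬ (p - 1) ∣ n`. -/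
theorem window_row (S : Susp T) [hp : Fact p.Prime] {n : ℕ} (hn : 1 ≤ n)
    (hd : ¬ (p - 1) ∣ n) {K : RingSp T} (hK : IsMorava S K p n) :
    ∃ N : ℕ, ∀ (X : T.C) (f : Hom T.one X), IsLoc K.obj f → ∀ c : ℤ,
      (∀ t, c ≤ t → t < c + N → Row p n t → FinGen p (Pi t X)) →
        ∀ t : ℤ, FinGen p (Pi t X) := by
  obtain ⟨N, hN⟩ := exists_window S hn (K := toA K) (moravaK_of_morava hK)
  exact ⟨N, fun X f hf c hc => hN X hf.2 c fun t h1 h2 =>
    finGen_of_row S hn hd hK f hf t (hc t h1 h2)⟩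

/-- **The main theorem**, with sparseness. -/
theorem sphere_sparse (S : Susp T) [hp : Fact p.Prime] {n : ℕ} (hn : 1 ≤ n)
    (hn5 : n ≤ 5) (h2n : 2 * n ≤ p + 1) (hd : ¬ (p - 1) ∣ n) (K : ℕ → RingSp T)
    (hK : ∀ i ≤ n, IsMorava S (K i) p i) :
    ∃ (N : ℕ) (V : T.C), (N : ℤ) = ∑ j ∈ Finset.Icc 1 (n - 1), (2 * (p : ℤ) ^ j - 1) ∧
      Cells 0 (N + 1) V ∧ (∀ i < n, Acyclic (K i).obj V) ∧ ¬ Acyclic (K n).obj V ∧
      ∀ (b e : ℤ) (Y X : T.C) (f : Hom Y X), Cells b e Y → IsLoc (K n).obj f →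
        (∀ s : ℤ, Finite (Hom (ten (sphere T s) V) X)) ∧ Window p N X ∧
        (Y = T.one → ∀ c : ℤ, (∀ t, c ≤ t → t < c + N → Row p n t → FinGen p (Pi t X)) →
          ∀ t : ℤ, FinGen p (Pi t X)) ∧
        ∀ (Z : T.C) (u : Hom X Z), IsFinLoc V u →
          (∀ (b' e' : ℤ) (F : T.C), Cells b' e' F → ∀ t : ℤ,
            (Finite (Pi t (ten X F)) ∨ #(Pi t (ten X F)) = 𝔠) ∧
            (Countable (Pi t (ten Z F)) ∨ #(Pi t (ten Z F)) = 𝔠) ∧
            (Countable (Pi t (ten Z F)) → Finite (Pi t (ten X F))) ∧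
            ((∀ s : ℤ, Finite (Pi s (ten X F))) → Countable (Pi t (ten Z F)))) ∧
          ∀ (C : T.C) (g : Hom T.one C) (h : Hom C (sus T.one)),
            Dist (zmul p (ident T.one)) g h → ∀ c : ℤ,
              ((∀ t : ℤ, FinGen p (Pi t X)) ↔
                ∀ t, c ≤ t → t < c + N → Countable (Pi t (ten Z C))) ∧
              (Y = T.one → ((∀ t : ℤ, FinGen p (Pi t X)) ↔
                ∀ t, c ≤ t → t < c + N → Row p n t → Countable (Pi t (ten Z C)))) := by
  obtain ⟨N, V, hN, hV, hA, hA', h⟩ := sphere_main S hn hn5 h2n hd K hK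
  refine ⟨N, V, hN, hV, hA, hA', fun b e Y X f hY hf => ?_⟩
  obtain ⟨h1, hw, h2⟩ := h b e Y X f hY hf
  have hX : IsLocal (K n).obj X := hf.2
  have hc := char_of_morava S hn (hK n le_rfl)
  obtain ⟨C₀, g₀, h₀, hC₀⟩ := distinguished_cocone_triangle ((p : ℤ) • 𝟙 (𝟙_ T.C))
  have hfg : Y = T.one → ∀ t : ℤ, (Row p n t → FinGen p (Pi t X)) → FinGen p (Pi t X) := by
    rintro rfl t ht
    by_cases hr : Row p n t
    · exact ht hr
    · have h0 := (sparse_sphere S hn hd (hK n le_rfl) f hf (C := C₀) (g := g₀) (h := h₀)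
        hC₀ t hr).1
      have hpc : PComp p (Pi t X) := pcomp_of_local hc hX _
      have hss : Subsingleton (Pi t X) := ⟨fun a b => (h0 a).trans (h0 b).symm⟩
      have hfin : Finite (Pi t X) := inferInstance
      exact ⟨hpc.module, @Module.Finite.of_finite _ _ _ _ hpc.module hfin⟩
  refine ⟨h1, hw, fun hY1 c hcr => hw c fun t ht1 ht2 => hfg hY1 t (hcr t ht1 ht2),
    fun Z u hu => ?_⟩
  obtain ⟨h3, h4⟩ := h2 Z u hu
  refine ⟨h3, fun C g h hC c => ⟨h4 C g h hC c, fun hY1 => ⟨fun hfgt t ht1 ht2 _ =>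
    (h4 C g h hC c).1 hfgt t ht1 ht2, fun hcr => hw c fun t ht1 ht2 => hfg hY1 t fun hr => ?_⟩⟩⟩
  have hC1 : Triangle.mk (((p : ℤ) ^ 1) • 𝟙 T.one) g h ∈ distTriang T.C := by
    rw [pow_one]
    exact hC
  exact finGen_of_coeff hC1 one_pos (pcomp_of_local hc hX _)
    ((h3 _ _ C (cells_moore hC) t).2.2.1 (hcr t ht1 ht2 hr))

end Vale.Agent.P261.E
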