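import Vale.Agent.P261.H321.E.CobFin
import Vale.Agent.P261.H321.E.LimFin
import Vale.Agent.P251.S.Final4

/-!
# P261: sparseness and the vanishing line for `π_* L_{K(h)} (S/p)`
-/

open CategoryTheory MonoidalCategory MonObj Limits Pretriangulated

set_option linter.unusedSectionVars false

universe v u

namespace Vale.Agent.P261.E

open Vale.Agent.P251 Vale.Agent.P251.M Vale.Agent.P251.F Vale.Agent.P251.C
open Vale.Agent.P251.T Vale.Agent.P251.S LawRing

section cob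

variable {p h : ℕ} [hp : Fact p.Prime]

theorem finite_primJ (D : LTD p h (GaloisField p h)) (w : ℤ) (j : ℕ) :
    Finite (Prim (D.TT j) w) := by
  have := D.finite
  have : Finite (D.EJ j) := Module.finite_of_finite (GaloisField p h)
  exact Finite.of_surjective _ ((D.coPt j).primMk_surjective (D.isCo j) w)

theorem hFin_primJ (hp2 : p ≠ 2) (D : LTD p h (GaloisField p h)) (hh : 1 ≤ h) (w : ℤ) (j s : ℕ) :
    HFin (AutF D.H.toFG) (Prim (D.tower.T j) w) s := by
  have := D.finite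
  have := D.charP
  have : Finite (Prim (D.tower.T j) w) := finite_primJ D w j
  exact hFin_virtUnif hp2 (D.honda.virtUnif_sq D.card hh) (D.tower.M w j)
    (D.tower.p_smul w j) s

/-- Finiteness of the cohomology in positive degrees. -/
theorem cobFinJ (hp2 : p ≠ 2) (hh : 1 ≤ h) (w : ℤ) (s j : ℕ) :
    ∃ (Q : Type) (_ : Finite Q) (q : Cob (NN p h (j + 1)) (s + 1) → Q),
      ∀ z z' : Cob (NN p h (j + 1)) (s + 1),
      Cob.IsWt w z → Cob.d (s + 1) z = 0 → Cob.IsWt w z' → Cob.d (s + 1) z' = 0 → q z = q z' →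
      ∃ y : Cob (NN p h (j + 1)) s, Cob.IsWt w y ∧ Cob.d s y = z - z' := by
  obtain ⟨D⟩ := LTD.exists_galoisField p h (by omega)
  have := D.finite
  have := D.charP
  exact descentFin_N (G := AutF D.H.toFG) (D.tower.hzero j) (D.tower.ι_law j) (D.tower.inv j) w s
    (hFin_primJ hp2 D hh w j (s + 1))

/-- Vanishing of the cohomology above `h²`. -/
theorem cobVanJ (hp2 : p ≠ 2) (hh : 1 ≤ h) (hd : ¬ (p - 1) ∣ h) (w : ℤ) (s j : ℕ)
    (hs : h * h ≤ s) (z : Cob (NN p h (j + 1)) (s + 1)) (hw : Cob.IsWt w z)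
    (hdz : Cob.d (s + 1) z = 0) :
    ∃ y : Cob (NN p h (j + 1)) s, Cob.IsWt w y ∧ Cob.d s y = z := by
  obtain ⟨D⟩ := LTD.exists_galoisField p h (by omega)
  have := D.finite
  have := D.charP
  exact D.tower.vanish j w s (D.honda.hZero_sq CV hp2 hh D.card hd (D.tower.M w j)
    (D.tower.p_smul w j) (s + 1) (by omega)) z hw hdz

end cob

section couple

variable {T : Type u} [Category.{v} T] [Preadditive T] [HasZeroObject T] [HasShift T ℤ]
  [∀ n : ℤ, (shiftFunctor T n).Additive] [Pretriangulated T] [MonoidalCategory T]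
  [SymmetricCategory T] [TensorTriangulated T]
  {R : T} [MonObj R] {U : UnitCof R} {Y : T} {F : T ⥤ T} [F.CommShift ℤ]
  [F.IsTriangulated] {P : T} {p h : ℕ} [hp : Fact p.Prime]

/-- A cocycle of the limit complex of positive degree which is a coboundary at every level. -/
theorem zeroE_of_levels {w : ℤ} (Φ : U.CobModel Y F P w (I.towerN p h w)) (hp2 : p ≠ 2)
    (hh : 1 ≤ h) {s : ℕ} {n : ℤ} (hn : n + (s : ℤ) = 2 * w)
    (h0 : s ≤ 1 → ∀ j (x : (I.towerN p h w).C 0 j), (I.towerN p h w).d 0 j x = 0 → x = 0)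
    (h1 : ∀ s', s = s' + 1 → ∀ j (z : Cob (NN p h (j + 1)) (s' + 1)), Cob.IsWt w z →
      Cob.d (s' + 1) z = 0 → ∃ y : Cob (NN p h (j + 1)) s', Cob.IsWt w y ∧ Cob.d s' y = z) :
    ZeroE (((U.tow Y).map F).couple P) s n := by
  rcases s with _ | s
  · intro z hz
    obtain ⟨c, hc, rfl⟩ := U.exists_cocycle_qE Y F P hn z hz
    have : c = 0 := by
      apply (Φ.φ 0).injective
      rw [map_zero]
      apply Subtype.ext
      funext j
      refine h0 (by omega) j _ ?_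
      have h := Φ.φ_d 0 c j
      rw [show c ≫ F.map (U.cobar.d (0 + 1) Y) = 0 from hc, map_zero] at h
      exact h.symm
    rw [this, map_zero]
  · have key : ∀ c : P⟦2 * w⟧ ⟶ F.obj (U.cobar.Q (s + 2) Y),
        c ≫ F.map (U.cobar.d (s + 2) Y) = 0 →
        ∃ y ∈ (I.towerN p h w).lim s, ∀ j, (I.towerN p h w).d s j (y j) =
          (Φ.φ (s + 1) c).1 j := by
      intro c hc
      have hdc : ∀ j, (I.towerN p h w).d (s + 1) j ((Φ.φ (s + 1) c).1 j) = 0 := by
        intro j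
        have h := Φ.φ_d (s + 1) c j
        rw [show c ≫ F.map (U.cobar.d (s + 1 + 1) Y) = 0 from hc, map_zero] at h
        exact h.symm
      have hb : ∀ j, ∃ y : (I.towerN p h w).C s j, (I.towerN p h w).d s j y =
          (Φ.φ (s + 1) c).1 j := by
        intro j
        obtain ⟨y, hy, hdy⟩ := h1 s rfl j (tval ((Φ.φ (s + 1) c).1 j))
          (show Cob.wt (NN p h (j + 1)) (s + 1) w from (Φ.φ (s + 1) c).1 j).2
          (congrArg Subtype.val (hdc j))
        exact ⟨(show Cob.wt (NN p h (j + 1)) s w from ⟨y, hy⟩), tval_injective _ _ hdy⟩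
      rcases s with _ | s
      · exact lim_cobdy_one (I.towerN p h w) (h0 le_rfl) _ (Φ.φ 1 c).2 hb
      · refine lim_cobdy_fin (I.towerN p h w) (towerN_r_surjective p h w s) ?_ _
          (Φ.φ (s + 1 + 1) c).2 hb
        intro j
        obtain ⟨Q, hQ, q, hq⟩ := cobFinJ (p := p) (h := h) hp2 hh w s j
        refine ⟨Q, hQ, fun x => q (tval x), fun x x' hx hx' he => ?_⟩
        obtain ⟨y, hy, hdy⟩ := hq (tval x) (tval x')
          (show Cob.wt (NN p h (j + 1)) (s + 1) w from x).2 (congrArg Subtype.val hx)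
          (show Cob.wt (NN p h (j + 1)) (s + 1) w from x').2 (congrArg Subtype.val hx') he
        exact ⟨(show Cob.wt (NN p h (j + 1)) s w from ⟨y, hy⟩), tval_injective _ _ hdy⟩
    refine U.van_of_exact Y F P hn ?_
    intro c hc
    obtain ⟨y, hy, hyd⟩ := key c hc
    refine ⟨(Φ.φ s).symm ⟨y, hy⟩, ?_⟩
    apply (Φ.φ (s + 1)).injective
    apply Subtype.ext
    funext j
    rw [Φ.φ_d, AddEquiv.apply_symm_apply]
    exact hyd j

/-- The vanishing of the `E_2`-term. -/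
theorem zeroE_model (hp2 : p ≠ 2) (hh : 1 ≤ h) (hd : ¬ (p - 1) ∣ h)
    (Φ : ∀ w : ℤ, U.CobModel Y F P w (I.towerN p h w))
    (hodd : ∀ (s : ℕ) (t : ℤ), Odd t → ∀ x : P⟦t⟧ ⟶ F.obj (U.cobar.Q (s + 1) Y), x = 0)
    (s : ℕ) (n : ℤ) (hs : s ≤ h * h → ¬ 2 * ((p : ℤ) - 1) ∣ n + s) :
    ZeroE (((U.tow Y).map F).couple P) s n := by
  rcases Int.even_or_odd (n + (s : ℤ)) with he | ho
  · obtain ⟨w, hw⟩ := he
    by_cases hdvd : ((p : ℤ) - 1) ∣ w
    · have hs' : h * h < s := by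
        by_contra hc
        refine hs (by omega) ?_
        rw [hw, ← two_mul]
        exact mul_dvd_mul_left 2 hdvd
      refine zeroE_of_levels (Φ w) hp2 hh (by rw [hw]; ring) (fun h1 => ?_) ?_
      · have : 1 ≤ h * h := Nat.mul_pos hh hh
        omega
      · intro s' hs'' j z hz hdz
        exact cobVanJ hp2 hh hd w s' j (by omega) z hz hdz
    · have h3 : ∀ j, _ := fun j => F3w p hp2 (NN p h (j + 1)) (epi_NN p h (j + 1))
        (NN.p_eq_zero p h (j + 1)) w hdvd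
      refine zeroE_of_levels (Φ w) hp2 hh (by rw [hw]; ring) (fun _ j x hx => ?_) ?_
      · apply tval_injective
        exact (h3 j).1 (tval x) (show Cob.wt (NN p h (j + 1)) 0 w from x).2
          (congrArg Subtype.val hx)
      · intro s' _ j z hz hdz
        exact (h3 j).2 s' z hz hdz
  · have h0 : ∀ z : (((U.tow Y).map F).couple P).E s n, z = 0 := fun z =>
      UnitCof.E_eq_zero_of_odd hodd s n ho z
    rcases s with _ | s
    · exact fun z _ => h0 z
    · intro b _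
      exact ⟨0, by rw [map_zero]; exact (h0 b).symm⟩

end couple

variable {T : Type u} [Category.{v} T] [Preadditive T] [HasZeroObject T]
    [HasShift T ℤ] [∀ n : ℤ, (shiftFunctor T n).Additive] [Pretriangulated T] [IsTriangulated T]
    [MonoidalCategory T] [SymmetricCategory T] [TensorTriangulated T] [MonoidalClosed T]
    [HasCoproducts.{0} T] [HasProducts.{0} T] [StableCat T]

/-- **Sparseness** for `π_* L_{K(h)} (S/p)`. -/
theorem sparse_LC (D : I.MUData T) {p h : ℕ} [Fact p.Prime] (hp2 : p ≠ 2) (hh : 1 ≤ h)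
    (hd : ¬ (p - 1) ∣ h) {C : T} {i : 𝟙_ T ⟶ C} {δ : C ⟶ (𝟙_ T)⟦(1 : ℤ)⟧}
    (hC : Triangle.mk ((p : ℤ) • 𝟙 (𝟙_ T)) i δ ∈ distTriang T)
    (Dk : KosData D.P (p : ℤ) h (D.vs p)) (F : LocFunctor Dk.K) (n : ℤ)
    (hn : ∀ s : ℕ, s ≤ h * h → ¬ 2 * ((p : ℤ) - 1) ∣ n + s)
    (x : (𝟙_ T)⟦n⟧ ⟶ F.L.obj C) : x = 0 := by
  obtain ⟨U⟩ := exists_unitCof D.R
  let G := grOut D U hp2 hh hC Dk F
  obtain ⟨c, hc⟩ := built_finEven_RPS D
  obtain ⟨b, hKF⟩ := Dk.built_finEven hc
  have hz : ∀ (s : ℕ) (n : ℤ), (s ≤ h * h → ¬ 2 * ((p : ℤ) - 1) ∣ n + s) →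
      ZeroE (((U.tow (𝟙_ T)).map (tensorRight C ⋙ F.L)).couple (𝟙_ T)) s n := fun s n hs =>
    zeroE_model hp2 hh hd G.model G.odd s n hs
  have h1 : ∀ y : (((U.tow (𝟙_ T)).map (tensorRight C ⋙ F.L)).couple (𝟙_ T)).D 0 n, y = 0 := by
    refine zero_D0 (fun s => hz s n (hn s)) (h * h + 1) ?_
    intro s hs y
    exact (U.tow (𝟙_ T)).converge_coeff C F (U.whisker_tow_c _)
      (Dk.built_isRMul (built_isRMul_RPS D.R _)) hKF
      (fun s n hn z => UnitCof.E_eq_zero_of_odd G.odd s n (Int.odd_iff.2 hn) z)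
      (h * h) (fun s hs n => hz (s + 1) n (by omega)) s hs n y
  have h2 : ∀ y : (𝟙_ T)⟦n + ((0 : ℕ) : ℤ)⟧ ⟶ F.L.obj (𝟙_ T ⊗ C), y = 0 := h1
  have h3 := h2 (eqToHom (by simp) ≫ x ≫ F.L.map (λ_ C).inv)
  have h4 : x ≫ F.L.map (λ_ C).inv = 0 := (cancel_epi _).1 (h3.trans comp_zero.symm)
  exact (cancel_mono (F.L.map (λ_ C).inv)).1 (h4.trans zero_comp.symm)

end Vale.Agent.P261.E
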