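import Vale.Agent.P261.H321.E.TypeN
import Vale.Agent.P261.H321.E.LowV
import Vale.Agent.P261.H321.Final

/-!
# P261 (helper321): the `K(n)`-localizations of finite spectra
-/

open CategoryTheory MonoidalCategory Limits Pretriangulated MonObj Cardinal

set_option linter.unusedSectionVars false

namespace Vale.Agent.P261.E

open Vale.Agent.P251 Vale.Agent.P251.St Vale.Agent.P251.St.SHCat Vale.Agent.P261.St
  Vale.Agent.P241.St
open Vale.Agent.P257.H314 Vale.Agent.P261.H321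

variable {T : SHCat} {p : ℕ}

/-- the cells of a tower -/
theorem cells_of_tower {N : ℕ} {V : T.C} (H : Tower p N V) : Cells 0 (N + 1) V := by
  refine cells_of_finCell ?_
  induction H with
  | base hk hT =>
    refine FinCell.ext₃ (S := {0}) _ hT
      (FinCell.unit (Set.mem_Icc.2 ⟨le_rfl, by norm_num⟩)) (FinCell.unit rfl) fun d hd => ?_
    obtain rfl : d = 0 := hd
    exact Set.mem_Icc.2 ⟨zero_le_one, by norm_num⟩
  | @step N d V W f g h hV hd hT ih =>
    refine FinCell.ext₃ (S := Set.Icc 0 (N + 1 + d)) _ hT (ih.mono fun x hx => ?_)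
      (ih.shift (d : ℤ) fun x hx => ?_) fun x hx => ?_
    · exact Set.mem_Icc.2 ⟨hx.1, by have := hx.2; push_cast; omega⟩
    · exact Set.mem_Icc.2 ⟨by have := hx.1; omega, by have := hx.2; omega⟩
    · exact Set.mem_Icc.2 ⟨by have := hx.1; omega, by have := hx.2; push_cast; omega⟩

/-- the homotopy groups of `K(0)` are uniquely divisible -/
theorem bij_rational {K : RingSp T} (hK : IsRational K) {m : ℤ} (hm : m ≠ 0) (t : ℤ) :
    Function.Bijective fun f : (𝟙_ T.C)⟦t⟧ ⟶ K.obj => m • f := by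
  by_cases ht : t = 0
  · subst ht
    exact bij_equiv
      { toFun := fun f => ((shiftFunctorZero T.C ℤ).app (𝟙_ T.C)).hom ≫ f
        invFun := fun f => ((shiftFunctorZero T.C ℤ).app (𝟙_ T.C)).inv ≫ f
        left_inv := fun f => by simp
        right_inv := fun f => by simp
        map_add' := fun f g => by simp } (hK.div m hm)
  · have h0 : ∀ f : (𝟙_ T.C)⟦t⟧ ⟶ K.obj, f = 0 := fun f => hK.conc t f ht
    exact ⟨fun f g _ => (h0 f).trans (h0 g).symm, fun f => ⟨0, by simp [h0 f]⟩⟩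

theorem ne_two {n : ℕ} (hd : ¬ (p - 1) ∣ n) : p ≠ 2 := by
  rintro rfl
  exact hd (one_dvd n)

/-- **Smith-Toda towers** of height `n`. -/
theorem exists_stow (S : Susp T) [hp : Fact p.Prime] {n : ℕ} (hn : 1 ≤ n) (hn5 : n ≤ 5)
    (h2n : 2 * n ≤ p + 1) (hd : ¬ (p - 1) ∣ n) (D : I.MUData T.C) {C : T.C} {iC : 𝟙_ T.C ⟶ C}
    {δ : C ⟶ (𝟙_ T.C)⟦(1 : ℤ)⟧}
    (hC : Triangle.mk ((p : ℤ) • 𝟙 (𝟙_ T.C)) iC δ ∈ distTriang T.C) :
    ∃ (V : T.C) (i : 𝟙_ T.C ⟶ V), STow D p n i := by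
  have hp2 := ne_two hd
  obtain ⟨m, V, i, hnm, hV⟩ : ∃ (m : ℕ) (V : T.C) (i : 𝟙_ T.C ⟶ V), n ≤ m ∧ STow D p m i := by
    by_cases h11 : 11 ≤ p
    · obtain ⟨U⟩ := P251.S.exists_unitCof D.R
      obtain ⟨V, i, hV⟩ := P257.H545.exists_V4P U h11 hC (P257.Main.factsP h11)
        (P257.H163.todaRel S.toSpaceFunctor D U (by omega) hC)
        (P257.H545.stepInput hp.out h11 (fun {_} => P257.Main.factsP h11) T.C D U C iC)
      exact ⟨5, V, i, hn5, hV.tow⟩
    · by_cases h5 : 5 ≤ p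
      · by_cases h3 : n ≤ 3
        · obtain ⟨V, i, hV⟩ := exists_V2_low (D := D) h5 hC
          exact ⟨3, V, i, h3, hV.tow⟩
        · have h7 : p = 7 := by
            have h8 : 7 ≤ p := by omega
            have hpr := hp.out
            clear hp hC hd hp2 h2n
            interval_cases p
            · rfl
            · norm_num at hpr
            · norm_num at hpr
            · norm_num at hpr
          subst h7
          obtain ⟨V, i, hV⟩ := exists_V3_seven (D := D) hC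
          exact ⟨4, V, i, by omega, hV.tow⟩
      · refine ⟨1, C, iC, ?_, STow.one hC⟩
        by_contra h1
        have hp0 := hp.out.two_le
        have h3 : p = 3 := by
          have hpr := hp.out
          clear hp hC hd h2n
          interval_cases p
          · omega
          · rfl
          · norm_num at hpr
        subst h3
        obtain rfl : n = 2 := by omega
        exact hd (by norm_num)
  obtain ⟨W, j, hW, -⟩ := stow_base hV n hn hnm
  exact ⟨W, j, hW⟩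

/-- **Smith-Toda complexes** `V(n-1)`. -/
theorem exists_ST (S : Susp T) [hp : Fact p.Prime] {n : ℕ} (hn : 1 ≤ n)
    (hn5 : n ≤ 5) (h2n : 2 * n ≤ p + 1) (hd : ¬ (p - 1) ∣ n)
    (K : ℕ → RingSp T) (hK : ∀ i ≤ n, IsMorava S (K i) p i) :
    ∃ (N : ℕ) (V : T.C), (N : ℤ) = ∑ j ∈ Finset.Icc 1 (n - 1), (2 * (p : ℤ) ^ j - 1) ∧
      Tower p N V ∧ (∀ i < n, Acyclic (K i).obj V) ∧ ¬ Acyclic (K n).obj V ∧
      ∀ (b e : ℤ) (Y X : T.C) (f : Hom Y X), Cells b e Y → IsLoc (K n).obj f → Fn V X := by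
  have := locallySmall_self.{0} T.C
  have hp2 := ne_two hd
  obtain ⟨D, hD, -, -⟩ := P257.H80.exists_muAll S.toSpaceFunctor (M.lineIso S.toSpaceFunctor)
  obtain ⟨C, iC, δ, hC⟩ := distinguished_cocone_triangle ((p : ℤ) • 𝟙 (𝟙_ T.C))
  obtain ⟨V, i, h⟩ := exists_stow S hn hn5 h2n hd D hC
  obtain ⟨m, hm, N, hN, hT⟩ := tower_of_stow h
  have hmn : m = n - 1 := by omega
  subst hmn
  have hcyc := stow_cyc hp2 h
  have hfin : FinCell T.C Set.univ V := finCell_of_stow h
  have hmor : ∀ k, 1 ≤ k → k ≤ n → ∃ o : Z.Oriented S.toSpaceFunctor (K k).obj,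
      Z.IsMoravaPos S.toSpaceFunctor p k o := by
    intro k hk1 hkn
    obtain ⟨k, rfl⟩ : ∃ j, k = j + 1 := ⟨k - 1, by omega⟩
    obtain ⟨-, o, hK'⟩ := isMorava_of S (K (k + 1)) (hK _ hkn)
    exact ⟨o, hK'⟩
  refine ⟨N, V, hN, hT, fun k hk => ?_, fun hA => ?_, fun b e Y X f hY hf => ?_⟩
  · rw [acyclic_iff]
    rcases Nat.eq_zero_or_pos k with rfl | hk0
    · obtain ⟨W, j, hW, hK'⟩ := stow_base h 1 le_rfl hn
      refine hK' _ ?_
      have hr : IsRational (K 0) := by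
        have := hK 0 (Nat.zero_le n)
        unfold IsMorava at this
        rwa [if_pos rfl] at this
      generalize h1eq : 1 = l at hW
      cases hW with
      | one hC' =>
        exact acyclic_rational (fun t => bij_rational hr (by exact_mod_cast hp.out.ne_zero) t) hC'
      | succ H =>
        obtain ⟨m'', hm'', -⟩ := tower_of_stow H
        omega
    · obtain ⟨W, j, hW, hK'⟩ := stow_base h (k + 1) (by omega) (by omega)
      obtain ⟨o, ho⟩ := hmor k hk0 hk.le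
      exact hK' _ (acyclic_of_cyc hD hk0 (stow_cyc hp2 hW) o ho)
  · rw [acyclic_iff] at hA
    obtain ⟨o, ho⟩ := hmor n hn le_rfl
    obtain ⟨Dk⟩ := P251.S.exists_kosData D.P (p : ℤ) n (D.vs p)
    obtain ⟨Λ⟩ := Z.nonempty_locFunctor' Dk.K
    exact not_acyclic_kos D hn hcyc hfin Dk Λ
      (Z.kos_of_acyclic hD hp2 hn hC o ho Dk hA)
  · obtain ⟨o, ho⟩ := hmor n hn le_rfl
    obtain ⟨hf1, hf2⟩ := (isLoc_iff _ _).1 hf
    exact fn_local hD hp2 hn hd o ho hcyc hfin (finCell_of_cells hY) f hf1 hf2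

/-- **The window criterion for towers with finite top.** -/
theorem window_of_fn [Fact p.Prime] {K X : T.C} (hK : (p : ℤ) • 𝟙 K = 0)
    (hX : IsLocal K X) {N : ℕ} {V : T.C} (H : Tower p N V) (hV : Fn V X) (a : ℤ)
    (ha : ∀ t, a ≤ t → t < a + N → FinGen p (Pi t X)) (t : ℤ) : FinGen p (Pi t X) := by
  obtain ⟨k, V₀, g, h, hk, hT, hW⟩ := Tower.window H X (-1) le_rfl (fun _ _ => hV)
  have e : ∀ s t : ℤ, s + t = 0 → (Pi t X ≃+ (T.one ⟶ X⟦s⟧)) := fun s t h =>
    shiftHomZ T.one X t s h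
  have h1 : ∀ s : ℤ, Finite (V₀ ⟶ X⟦s⟧) := by
    refine hW (2 - a - N) fun s hs1 hs2 => ?_
    refine finite_moore hT ?_ ?_
    · exact FinGen.equiv (ha (-s) (by omega) (by omega)) (e _ _ (by omega))
    · exact FinGen.equiv (ha (1 - s) (by omega) (by omega)) (e _ _ (by omega))
  have h2 : PComp p (T.one ⟶ X⟦-t⟧) :=
    (pcomp_of_local hK hX ((𝟙_ T.C)⟦t⟧)).equiv (e (-t) t (by omega))
  exact FinGen.equiv (finGen_of_moore hk hT h2 (h1 _)) (e (-t) t (by omega)).symm

/-- **The main theorem**. -/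
theorem sphere_main (S : Susp T) [hp : Fact p.Prime] {n : ℕ} (hn : 1 ≤ n)
    (hn5 : n ≤ 5) (h2n : 2 * n ≤ p + 1) (hd : ¬ (p - 1) ∣ n) (K : ℕ → RingSp T) (hK : ∀ i ≤ n, IsMorava S (K i) p i) :
    ∃ (N : ℕ) (V : T.C), (N : ℤ) = ∑ j ∈ Finset.Icc 1 (n - 1), (2 * (p : ℤ) ^ j - 1) ∧
      Cells 0 (N + 1) V ∧ (∀ i < n, Acyclic (K i).obj V) ∧ ¬ Acyclic (K n).obj V ∧
      ∀ (b e : ℤ) (Y X : T.C) (f : Hom Y X), Cells b e Y → IsLoc (K n).obj f →
        (∀ s : ℤ, Finite (Hom (ten (sphere T s) V) X)) ∧ Window p N X ∧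
        ∀ (Z : T.C) (u : Hom X Z), IsFinLoc V u →
          (∀ (b' e' : ℤ) (F : T.C), Cells b' e' F → ∀ t : ℤ,
            (Finite (Pi t (ten X F)) ∨ #(Pi t (ten X F)) = 𝔠) ∧
            (Countable (Pi t (ten Z F)) ∨ #(Pi t (ten Z F)) = 𝔠) ∧
            (Countable (Pi t (ten Z F)) → Finite (Pi t (ten X F))) ∧
            ((∀ s : ℤ, Finite (Pi s (ten X F))) → Countable (Pi t (ten Z F)))) ∧
          ∀ (C : T.C) (g : Hom T.one C) (h : Hom C (sus T.one)),
            Dist (zmul p (ident T.one)) g h → ∀ c : ℤ,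
              ((∀ t : ℤ, FinGen p (Pi t X)) ↔
                ∀ t, c ≤ t → t < c + N → Countable (Pi t (ten Z C))) := by
  obtain ⟨N, V, hN, hT, hA, hA', hfn⟩ := exists_ST S hn hn5 h2n hd K hK
  have hV := cells_of_tower hT
  refine ⟨N, V, hN, hV, hA, hA', fun b e Y X f hY hf => ?_⟩
  have hX : IsLocal (K n).obj X := hf.2
  have h1 : Fn V X := hfn b e Y X f hY hf
  have hs : ∀ s : ℤ, Finite (Hom (ten (sphere T s) V) X) := fun s =>
    (fn_ten_iff s).2 (h1 (-s))
  have hc := char_of_morava S hn (hK n le_rfl)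
  have hw : Window p N X := fun a ha t => window_of_fn hc hX hT h1 a ha t
  have hKA : IsMoravaK S p n (toA (K n)) := moravaK_of_morava (hK n le_rfl)
  refine ⟨hs, hw, fun Z u hu => ⟨fun b' e' F hF t => ?_, fun C g h hC c => ⟨fun hfg t _ _ => ?_,
    fun hcount => hw c fun t ht1 ht2 => ?_⟩⟩⟩
  · exact count_main S (K := toA (K n)) hKA hV hA' hX hs hu hF t
  · have hC1 : Triangle.mk (((p : ℤ) ^ 1) • 𝟙 T.one) g h ∈ distTriang T.C := by
      rw [pow_one]
      exact hC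
    exact (count_main S (K := toA (K n)) hKA hV hA' hX hs hu (cells_moore hC) t).2.2.2 fun s =>
      finite_coeff hC1 (hfg s) (hfg (s - 1))
  · have hC1 : Triangle.mk (((p : ℤ) ^ 1) • 𝟙 T.one) g h ∈ distTriang T.C := by
      rw [pow_one]
      exact hC
    exact finGen_of_coeff hC1 one_pos (pcomp_of_local hc hX _)
      ((count_main S (K := toA (K n)) hKA hV hA' hX hs hu (cells_moore hC) t).2.2.1
        (hcount t ht1 ht2))

end Vale.Agent.P261.E
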