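import Vale.Agent.P261.H321.E.Sparse
import Vale.Agent.P261.H321.E.Sphere
import Vale.Agent.P261.St.Rows

/-!
# P261 (helper321): sparseness for the homotopy groups of `L_{K(n)} S`
-/

open CategoryTheory MonoidalCategory Limits Pretriangulated MonObj Cardinal

set_option linter.unusedSectionVars false

universe v u

namespace Vale.Agent.P261.E

open Vale.Agent.P251 Vale.Agent.P251.T Vale.Agent.P251.M Vale.Agent.P251.S Vale.Agent.P251.H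
  Vale.Agent.P257.H314 Vale.Agent.P261.H321
open Vale.Agent.P251.M.EvenSpheres

section gen

variable {T : Type u} [Category.{v} T] [Preadditive T] [HasZeroObject T]
    [HasShift T ℤ] [∀ n : ℤ, (shiftFunctor T n).Additive] [Pretriangulated T] [IsTriangulated T]
    [MonoidalCategory T] [SymmetricCategory T] [TensorTriangulated T] [MonoidalClosed T]
    [HasCoproducts.{0} T] [HasProducts.{0} T] [StableCat T] [LocallySmall.{0} T]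

/-- **Sparseness of `π_* (L_{K(n)} S ⊗ S/p)`.** -/
theorem sparse_local {F : I.SpaceFunctor T} {e : F.S.obj CCF ≅ (stdEven T).L} {D : I.MUData T}
    (hD : I.MUUniv e D) {p n : ℕ} [Fact p.Prime] (hp2 : p ≠ 2) (hn : 1 ≤ n)
    (hd : ¬ (p - 1) ∣ n) {K : T} [MonObj K] [IsCommMonObj K] (o : Z.Oriented F K)
    (hK : Z.IsMoravaPos F p n o) {C : T} {iC : 𝟙_ T ⟶ C} {δ : C ⟶ (𝟙_ T)⟦(1 : ℤ)⟧}
    (hC : Triangle.mk ((p : ℤ) • 𝟙 (𝟙_ T)) iC δ ∈ distTriang T) {X : T} (f : 𝟙_ T ⟶ X)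
    (hf : IsIso (K ◁ f)) (hX : Vale.Agent.P251.S.IsLocal K X) (t : ℤ)
    (ht : ∀ s : ℕ, s ≤ n * n → ¬ 2 * ((p : ℤ) - 1) ∣ t + s)
    (x : (𝟙_ T)⟦t⟧ ⟶ X ⊗ C) : x = 0 := by
  obtain ⟨Dk⟩ := exists_kosData D.P (p : ℤ) n (D.vs p)
  obtain ⟨Λ⟩ := Z.nonempty_locFunctor' Dk.K
  have hX' : Vale.Agent.P251.S.IsLocal Dk.K X := fun W hW g =>
    hX (Z.acyclic_of_kos hD hn o hK Dk hW) g
  have hf' : IsIso (Dk.K ◁ f) := by
    obtain ⟨Z', g, d, hΔ⟩ := distinguished_cocone_triangle f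
    exact (acyclic₃_iff_isIso₁ hΔ).1
      (Z.kos_of_acyclic hD hp2 hn hC o hK Dk ((acyclic₃_iff_isIso₁ hΔ).2 hf))
  have hCf : FinCell T Set.univ C :=
    FinCell.ext₃ (S := Set.univ) _ hC (FinCell.unit trivial) (FinCell.unit trivial)
      fun _ _ => trivial
  let B₁ : BLoc Dk.K (C ⊗ 𝟙_ T) := blocTensor f hf' hX' hCf
  let B₂ : BLoc Dk.K (C ⊗ 𝟙_ T) :=
    { obj := Λ.L.obj C
      toLoc := (ρ_ C).hom ≫ Λ.u C
      isIso := by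
        rw [MonoidalCategory.whiskerLeft_comp]
        exact @IsIso.comp_isIso _ _ _ _ _ _ _ inferInstance (Λ.isIso C)
      isLocal := Λ.isLocal C }
  let g : C ⊗ X ≅ Λ.L.obj C := B₁.iso B₂
  have h1 : x ≫ (β_ X C).hom ≫ g.hom = 0 := sparse_LC D hp2 hn hd hC Dk Λ t ht _
  have h2 : x ≫ ((β_ X C).hom ≫ g.hom) = 0 ≫ ((β_ X C).hom ≫ g.hom) := by
    rw [h1, zero_comp]
  exact (cancel_mono _).1 h2

end gen

open Vale.Agent.P251.St Vale.Agent.P251.St.SHCat Vale.Agent.P261.St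

variable {T : SHCat} {p : ℕ}

/-- if the homotopy modulo `p` vanishes, then so does the homotopy -/
theorem zero_of_coeff {X C : T.C} {g : T.one ⟶ C} {h : C ⟶ (T.one)⟦(1 : ℤ)⟧}
    (hT : Triangle.mk ((p : ℤ) • 𝟙 T.one) g h ∈ distTriang T.C) {t : ℤ}
    (hc : PComp p ((𝟙_ T.C)⟦t⟧ ⟶ X)) (hf : ∀ x : (𝟙_ T.C)⟦t⟧ ⟶ X ⊗ C, x = 0)
    (x : (𝟙_ T.C)⟦t⟧ ⟶ X) : x = 0 := by
  have D := P251.S.dist_whiskerLeft X hT
  have key : ∀ a : (𝟙_ T.C)⟦t⟧ ⟶ X, ∃ z : (𝟙_ T.C)⟦t⟧ ⟶ X, a = (p : ℤ) • z := by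
    intro a
    obtain ⟨z, hz⟩ := Triangle.coyoneda_exact₂ _ D (a ≫ (ρ_ X).inv) (hf _)
    change (𝟙_ T.C)⟦t⟧ ⟶ X ⊗ 𝟙_ T.C at z
    have hz' : a ≫ (ρ_ X).inv = z ≫ (X ◁ ((p : ℤ) • 𝟙 (𝟙_ T.C))) := hz
    rw [wl_zsmul, MonoidalCategory.whiskerLeft_id, Preadditive.comp_zsmul,
      Category.comp_id] at hz'
    refine ⟨z ≫ (ρ_ X).hom, ?_⟩
    rw [← Preadditive.zsmul_comp, ← hz', Category.assoc, Iso.inv_hom_id, Category.comp_id]
  choose z hz using key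
  exact hc.zero (fun i => z^[i] x) (fun i => by
    rw [Function.iterate_succ_apply']
    exact hz _) 0

/-- **Sparseness of `π_* L_{K(n)} S`.** -/
theorem sparse_sphere (S : Susp T) [hp : Fact p.Prime] {n : ℕ} (hn : 1 ≤ n)
    (hd : ¬ (p - 1) ∣ n) {K : RingSp T} (hK : IsMorava S K p n) {X : T.C} (f : Hom T.one X)
    (hf : IsLoc K.obj f) {C : T.C} {g : Hom T.one C} {h : Hom C (sus T.one)}
    (hC : SHCat.Dist (zmul p (ident T.one)) g h) (t : ℤ) (ht : ¬ Row p n t) :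
    (∀ x : Pi t X, x = 0) ∧ ∀ x : Pi t (ten X C), x = 0 := by
  have hp2 := ne_two hd
  have := locallySmall_self.{0} T.C
  obtain ⟨D, hD, -, -⟩ := P257.H80.exists_muAll S.toSpaceFunctor (M.lineIso S.toSpaceFunctor)
  obtain ⟨o, ho⟩ : ∃ o : Z.Oriented S.toSpaceFunctor K.obj,
      Z.IsMoravaPos S.toSpaceFunctor p n o := by
    obtain ⟨n, rfl⟩ : ∃ j, n = j + 1 := ⟨n - 1, by omega⟩
    obtain ⟨-, o, hK'⟩ := isMorava_of S K hK
    exact ⟨o, hK'⟩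
  obtain ⟨hf1, hf2⟩ := (isLoc_iff _ _).1 hf
  have hC' : Triangle.mk ((p : ℤ) • 𝟙 (𝟙_ T.C)) g h ∈ distTriang T.C := hC
  have h1 : ∀ x : (𝟙_ T.C)⟦t⟧ ⟶ X ⊗ C, x = 0 := fun x =>
    sparse_local hD hp2 hn hd o ho hC' f hf1 hf2 t
      (fun s hs hdv => ht ⟨s, by rwa [pow_two], hdv⟩) x
  exact ⟨fun x => zero_of_coeff hC' (pcomp_of_local (char_of_morava S hn hK) hf.2 _) h1 x, h1⟩

end Vale.Agent.P261.E
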