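import Vale.Agent.P261.H321.E.VFin
import Vale.Agent.P261.H321.CountTypes
import Vale.Agent.P251.Z.KRev
import Vale.Agent.P251.Z.FinalA

/-!
# P261 (helper321): finiteness for the `K(n)`-localizations of finite spectra

* `finCell_of_stow` : Smith-Toda towers are finite complexes;
* `fn_ihom` : if `π_* (X ⊗ V)` is finite, then `[V, X]_*` is finite;
* `fn_local` : if `f : F ⟶ X` is the localization of the finite complex `F` with respect to a
  Morava `K`-theory of height `h` and `V` has cyclic homology `MU_* / I_h`, then `[V, X]_*` is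
  finite.
-/

open CategoryTheory MonoidalCategory Limits Pretriangulated MonObj

set_option linter.unusedSectionVars false

universe v u

namespace Vale.Agent.P261.E

open Vale.Agent.P251 Vale.Agent.P251.T Vale.Agent.P251.M Vale.Agent.P251.S Vale.Agent.P251.H
  Vale.Agent.P257.H314 Vale.Agent.P261.H321
open Vale.Agent.P251.M.EvenSpheres

section gen

variable {T : Type u} [Category.{v} T] [Preadditive T] [HasZeroObject T]
    [HasShift T ℤ] [∀ n : ℤ, (shiftFunctor T n).Additive] [Pretriangulated T]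
    [MonoidalCategory T] [SymmetricCategory T] [TensorTriangulated T]

/-- the tensor product of a local object with a finite complex is local -/
theorem isLocal_cell {K X : T} (hX : Vale.Agent.P251.S.IsLocal K X) {S : Set ℤ} {F : T}
    (hF : FinCell T S F) : Vale.Agent.P251.S.IsLocal K (F ⊗ X) := by
  induction hF with
  | zero F hF => exact isLocal_of_isZero ((tensorRight X).map_isZero hF)
  | sphere d hd => exact (hX.shift d).of_iso (sphTensor d X).symm
  | ext Δ hΔ _ _ ih₁ ih₃ =>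
    have D : Dist Δ.mor₁ Δ.mor₂ Δ.mor₃ := hΔ
    obtain ⟨h', D'⟩ := dist_wr D X
    exact IsLocal.ext₂ D' ih₁ ih₃

/-- localizations and tensor products with finite complexes -/
noncomputable def blocTensor {K Y X : T} (f : Y ⟶ X) (hf : IsIso (K ◁ f))
    (hX : Vale.Agent.P251.S.IsLocal K X) {S : Set ℤ} {F : T} (hF : FinCell T S F) :
    BLoc K (F ⊗ Y) where
  obj := F ⊗ X
  toLoc := F ◁ f
  isIso := by
    have h1 : K ◁ (F ◁ f) = (α_ K F Y).inv ≫ ((β_ K F).hom ▷ Y) ≫ (α_ F K Y).hom ≫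
        (F ◁ (K ◁ f)) ≫ (α_ F K X).inv ≫ ((β_ K F).inv ▷ X) ≫ (α_ K F X).hom := by
      rw [← associator_naturality_right_assoc, Iso.hom_inv_id_assoc, ← whisker_exchange_assoc,
        ← comp_whiskerRight_assoc, Iso.hom_inv_id, id_whiskerRight, Category.id_comp,
        associator_naturality_right, Iso.inv_hom_id_assoc]
    rw [h1]
    infer_instance
  isLocal := isLocal_cell hX hF

theorem fn_retract {A A' B : T} (h : Fn A B) (a : A' ⟶ A) (b : A ⟶ A') (hab : a ≫ b = 𝟙 A') :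
    Fn A' B := fun s =>
  have := h s
  Finite.of_surjective (fun y : A ⟶ B⟦s⟧ => a ≫ y) fun x =>
    ⟨b ≫ x, by
      change a ≫ b ≫ x = x
      rw [← Category.assoc, hab, Category.id_comp]⟩

variable [MonoidalClosed T] [HasCoproducts.{0} T]

/-- if `π_* (V ⊗ X)` is finite, then `[V, X]_*` is finite -/
theorem fn_dual {V X : T} {S : Set ℤ} (hV : FinCell T S V) (h : Fn (𝟙_ T) (V ⊗ X)) :
    Fn V X := by
  obtain ⟨P⟩ := exists_jd (dz_of_finCell hV)
  have h1 : Fn (P.D ⊗ 𝟙_ T) X := Fn.of_dualL P h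
  have h2 : Fn P.D X := h1.isoL (ρ_ P.D)
  have h4 : Fn (V ⊗ (V ⊗ P.D)) X := (h2.cellL hV).cellL hV
  let _ := P.pair
  have h5 : Fn ((V ⊗ P.D) ⊗ V) X := h4.isoL (β_ V (V ⊗ P.D))
  refine fn_retract h5 ((ρ_ V).inv ≫ V ◁ η_ P.D V ≫ (α_ V P.D V).inv)
    (ε_ P.D V ▷ V ≫ (λ_ V).hom) ?_
  have h6 := ExactPairing.coevaluation_evaluation P.D V
  simp only [Category.assoc]
  rw [reassoc_of% h6]
  simp

/-- Smith-Toda towers are finite complexes -/
theorem finCell_of_stow {D : I.MUData T} {p h : ℕ} {V : T} {i : 𝟙_ T ⟶ V}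
    (H : STow D p h i) : FinCell T Set.univ V := by
  induction H with
  | one hC =>
    exact FinCell.ext₃ (S := Set.univ) _ hC (FinCell.unit trivial) (FinCell.unit trivial)
      fun _ _ => trivial
  | succ H x hx f hf j δ hΔ ih =>
    exact FinCell.ext₃ (S := Set.univ) _ hΔ ih
      (((FinCell.sphere (S := Set.univ) _ trivial).of_iso (sI T _).symm).tensor ih
        fun _ _ _ _ => trivial) fun _ _ => trivial

end gen

variable {T : Type u} [Category.{v} T] [Preadditive T] [HasZeroObject T]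
    [HasShift T ℤ] [∀ n : ℤ, (shiftFunctor T n).Additive] [Pretriangulated T] [IsTriangulated T]
    [MonoidalCategory T] [SymmetricCategory T] [TensorTriangulated T] [MonoidalClosed T]
    [HasCoproducts.{0} T] [HasProducts.{0} T] [StableCat T] [LocallySmall.{0} T]

/-- **Finiteness of `[V, L_{K(n)} Y]_*`**, `V` cyclic, `Y` finite. -/
theorem fn_local {F : I.SpaceFunctor T} {e : F.S.obj CCF ≅ (stdEven T).L} {D : I.MUData T}
    (hD : I.MUUniv e D) {p n : ℕ} [Fact p.Prime] (hp2 : p ≠ 2) (hn : 1 ≤ n)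
    (hd : ¬ (p - 1) ∣ n) {K : T} [MonObj K] [IsCommMonObj K] (o : Z.Oriented F K)
    (hK : Z.IsMoravaPos F p n o) {V : T} {i : 𝟙_ T ⟶ V} (H : Cyc D p n i) {S S' : Set ℤ}
    (hV : FinCell T S V) {Y X : T} (hY : FinCell T S' Y) (f : Y ⟶ X) (hf : IsIso (K ◁ f))
    (hX : Vale.Agent.P251.S.IsLocal K X) : Fn V X := by
  obtain ⟨Dk⟩ := exists_kosData D.P (p : ℤ) n (D.vs p)
  obtain ⟨Λ⟩ := Z.nonempty_locFunctor' Dk.K
  obtain ⟨C, iC, δ, hC⟩ := distinguished_cocone_triangle ((p : ℤ) • 𝟙 (𝟙_ T))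
  have hX' : Vale.Agent.P251.S.IsLocal Dk.K X := fun W hW g =>
    hX (Z.acyclic_of_kos hD hn o hK Dk hW) g
  have hf' : IsIso (Dk.K ◁ f) := by
    obtain ⟨Z', g, d, hΔ⟩ := distinguished_cocone_triangle f
    exact (acyclic₃_iff_isIso₁ hΔ).1
      (Z.kos_of_acyclic hD hp2 hn hC o hK Dk ((acyclic₃_iff_isIso₁ hΔ).2 hf))
  have h1 : Fn (𝟙_ T) (Λ.L.obj V) :=
    fn_iff.2 fun s => finite_LV D hp2 hn hd H hV Dk Λ s
  have h2 : Fn (𝟙_ T) (Y ⊗ Λ.L.obj V) := h1.cellR hY
  let B₁ : BLoc Dk.K (V ⊗ Y) := blocTensor f hf' hX' hV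
  let B₀ : BLoc Dk.K (Y ⊗ V) := blocTensor (Λ.u V) (Λ.isIso V) (Λ.isLocal V) hY
  let B₂ : BLoc Dk.K (V ⊗ Y) :=
    { obj := B₀.obj
      toLoc := (β_ V Y).hom ≫ B₀.toLoc
      isIso := by
        have := B₀.isIso
        rw [MonoidalCategory.whiskerLeft_comp]
        infer_instance
      isLocal := B₀.isLocal }
  have h3 : Fn (𝟙_ T) (V ⊗ X) := h2.isoR (B₂.iso B₁)
  exact fn_dual hV h3

end Vale.Agent.P261.E
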