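import Vale.Agent.P261.H321.E.Trans

/-!
# P261 (helper321): `V(n-1)` has type `n`

* `not_acyclic_kos` : cyclic objects of height `n` are not acyclic for the Koszul object of
  height `n`;
* `stow_base` : acyclicity of the stages of a Smith-Toda tower;
* `acyclic_rational` : the cofibre of `p` is rationally acyclic;
* `moravaK_of_morava` : the two definitions of Morava `K`-theories.
-/

open CategoryTheory MonoidalCategory Limits Pretriangulated MonObj

set_option linter.unusedSectionVars false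

universe v u

namespace Vale.Agent.P261.E

open Vale.Agent.P251 Vale.Agent.P251.T Vale.Agent.P251.M Vale.Agent.P251.S Vale.Agent.P251.H
  Vale.Agent.P251.F Vale.Agent.P257.H314 Vale.Agent.P261.H321
open Vale.Agent.P251.M.EvenSpheres Vale.Agent.P251.S.GD

theorem nontrivial_NN (p h : ℕ) [Fact p.Prime] (hh : 1 ≤ h) : Nontrivial (NN p h 1) := by
  obtain ⟨D⟩ := LTD.exists_galoisField p h (by omega)
  have : Nontrivial (D.tower.T 0) := inferInstanceAs (Nontrivial (D.TT 0))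
  exact (D.tower.ι 0).domain_nontrivial

section gen

variable {T : Type u} [Category.{v} T] [Preadditive T] [HasZeroObject T]
    [HasShift T ℤ] [∀ n : ℤ, (shiftFunctor T n).Additive] [Pretriangulated T] [IsTriangulated T]
    [MonoidalCategory T] [SymmetricCategory T] [TensorTriangulated T] [MonoidalClosed T]
    [HasCoproducts.{0} T] [HasProducts.{0} T] [StableCat T]

/-- cyclic objects are not acyclic -/
theorem not_acyclic_kos (D : I.MUData T) {V : T} {i : 𝟙_ T ⟶ V} {p h : ℕ} [Fact p.Prime]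
    (hh : 1 ≤ h) (H : Cyc D p h i) {S : Set ℤ} (hV : FinCell T S V)
    (Dk : KosData D.P (p : ℤ) h (D.vs p)) (F : LocFunctor Dk.K) : ¬ P251.S.Acyclic Dk.K V := by
  intro hA
  obtain ⟨U⟩ := exists_unitCof D.R
  have hE : ∀ s, E1C F (D.vs p) h (MP D V s) := fun s => e1C_MP' D H hV hh Dk F s
  obtain ⟨φ, -⟩ := exists_model D F H U hh hE 0
  have h1 : IsZero ((tensorRight V ⋙ F.L).obj (U.cobar.Q (0 + 1) (𝟙_ T))) := by
    have h2 : P251.S.Acyclic Dk.K (U.cobar.Q (0 + 1) (𝟙_ T) ⊗ V) := hA.tensor_left _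
    refine (F.isLocal _).isZero ?_
    exact IsZero.of_iso h2 (@asIso _ _ _ _ _ (F.isIso (U.cobar.Q (0 + 1) (𝟙_ T) ⊗ V))).symm
  have h3 : (φ 0).symm ⟨1, Cob.isWt_one⟩ = 0 := h1.eq_of_tgt _ _
  have h4 : (⟨1, Cob.isWt_one⟩ : Cob.wt (NN p h 1) 0 0) = 0 := by
    rw [← (φ 0).apply_symm_apply ⟨1, Cob.isWt_one⟩, h3, map_zero]
  have h5 : (1 : Cob (NN p h 1) 0) = 0 := congrArg Subtype.val h4
  have := nontrivial_NN p h hh
  exact one_ne_zero h5

/-- the stages of a Smith-Toda tower -/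
theorem stow_base {D : I.MUData T} {p h : ℕ} {V : T} {i : 𝟙_ T ⟶ V} (H : STow D p h i) :
    ∀ k, 1 ≤ k → k ≤ h → ∃ (W : T) (j : 𝟙_ T ⟶ W), STow D p k j ∧
      ∀ K : T, P251.S.Acyclic K W → P251.S.Acyclic K V := by
  induction H with
  | @one C iC δ hC =>
    intro k h1 h2
    obtain rfl : k = 1 := by omega
    exact ⟨C, iC, STow.one hC, fun K hK => hK⟩
  | @succ h V V' i H x hx f hf j δ hΔ ih =>
    intro k h1 h2
    by_cases h3 : k = h + 1
    · subst h3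
      exact ⟨V', i ≫ j, STow.succ H x hx f hf j δ hΔ, fun K hK => hK⟩
    · obtain ⟨W, l, hW, hK⟩ := ih k h1 (by omega)
      exact ⟨W, l, hW, fun K h4 => Acyclic.ext₃ hΔ ((hK K h4).tensor_left _) (hK K h4)⟩

theorem bij_equiv {A B : Type*} [AddCommGroup A] [AddCommGroup B] {p : ℤ} (e : A ≃+ B)
    (h : Function.Bijective fun f : A => p • f) : Function.Bijective fun f : B => p • f := by
  have h1 : (fun f : B => p • f) = e ∘ (fun f : A => p • f) ∘ e.symm := by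
    funext f
    simp
  rw [h1]
  exact e.bijective.comp (h.comp e.symm.bijective)

/-- the cofibre of `p` is acyclic for objects with uniquely `p`-divisible homotopy groups -/
theorem acyclic_rational {K : T} {p : ℤ}
    (hK : ∀ t : ℤ, Function.Bijective fun f : (𝟙_ T)⟦t⟧ ⟶ K => p • f)
    {C : T} {g : 𝟙_ T ⟶ C} {δ : C ⟶ (𝟙_ T)⟦(1 : ℤ)⟧}
    (hC : Triangle.mk (p • 𝟙 (𝟙_ T)) g δ ∈ distTriang T) : P251.S.Acyclic K C := by
  have D := P251.S.dist_whiskerLeft K hC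
  let d : K ⊗ C ⟶ (K ⊗ 𝟙_ T)⟦(1 : ℤ)⟧ :=
    (K ◁ δ) ≫ ((tensorLeft K).commShiftIso (1 : ℤ)).hom.app (𝟙_ T)
  have D' : Triangle.mk (K ◁ (p • 𝟙 (𝟙_ T))) (K ◁ g) d ∈ distTriang T := D
  have hp : K ◁ (p • 𝟙 (𝟙_ T)) = p • 𝟙 (K ⊗ 𝟙_ T) := by
    have := map_zsmul ((tensorLeft K).mapAddHom (X := 𝟙_ T) (Y := 𝟙_ T)) p (𝟙 _)
    change K ◁ (p • 𝟙 (𝟙_ T)) = p • (K ◁ 𝟙 (𝟙_ T)) at this
    rw [this, MonoidalCategory.whiskerLeft_id]
  rw [hp] at D'
  have hK1 : ∀ t : ℤ, Function.Bijective fun f : (𝟙_ T)⟦t⟧ ⟶ K ⊗ 𝟙_ T => p • f := fun t =>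
    bij_equiv
      { toFun := fun f => f ≫ (ρ_ K).inv
        invFun := fun f => f ≫ (ρ_ K).hom
        left_inv := fun f => by simp
        right_inv := fun f => by simp
        map_add' := fun f g => by simp } (hK t)
  have hK2 : ∀ t : ℤ, Function.Bijective
      fun f : (𝟙_ T)⟦t⟧ ⟶ (K ⊗ 𝟙_ T)⟦(1 : ℤ)⟧ => p • f := fun t =>
    bij_equiv ((shiftHomZ (𝟙_ T) (K ⊗ 𝟙_ T) (t - 1) (1 - t) (by ring)).trans
      (shiftHom (𝟙_ T) (K ⊗ 𝟙_ T) t 1 (1 - t) (by ring)).symm) (hK1 (t - 1))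
  refine StableCat.generator _ fun n f => ?_
  have h1 : f ≫ d = 0 := by
    apply (hK2 n).1
    dsimp only
    rw [smul_zero]
    have h3 : d ≫ (p • 𝟙 (K ⊗ 𝟙_ T))⟦(1 : ℤ)⟧' = 0 := comp_distTriang_mor_zero₃₁ _ D'
    rw [Functor.map_zsmul, CategoryTheory.Functor.map_id, Preadditive.comp_zsmul,
      Category.comp_id] at h3
    rw [← Preadditive.comp_zsmul, h3, comp_zero]
  obtain ⟨y, hy⟩ := Triangle.coyoneda_exact₃ _ D' f h1
  change (𝟙_ T)⟦n⟧ ⟶ K ⊗ 𝟙_ T at y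
  replace hy : f = y ≫ K ◁ g := hy
  obtain ⟨z, hz⟩ := (hK1 n).2 y
  dsimp only at hz
  have h2 : (p • 𝟙 (K ⊗ 𝟙_ T)) ≫ K ◁ g = 0 := comp_distTriang_mor_zero₁₂ _ D'
  rw [hy, ← hz, Preadditive.zsmul_comp, ← Preadditive.comp_zsmul]
  rw [Preadditive.zsmul_comp, Category.id_comp] at h2
  rw [h2, comp_zero]

end gen

/-! ### statement layer -/

section st

open Vale.Agent.P251.St Vale.Agent.P251.St.SHCat Vale.Agent.P241.St Vale.Agent.P261.St

variable {T : SHCat} {S : Susp T} {p : ℕ}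

/-- the associative ring spectrum underlying a commutative one -/
abbrev toA (K : RingSp T) : RingA T := ⟨K.obj⟩

theorem push_id (K : RingSp T) {n : ℕ} {X : Space} (x : Coh S K n X) :
    push (S := S) (K := toA K) (𝟙 K.obj) x = x := by
  change x ≫ (𝟙 K.obj ⊗ₘ 𝟙 (S.obj (Cn n))) = x
  rw [MonoidalCategory.id_tensorHom_id, Category.comp_id]

/-- the two definitions of Morava `K`-theories -/
theorem moravaK_of_morava {K : RingSp T} {n : ℕ} (h : IsMorava S K p n) :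
    IsMoravaK S p n (toA K) := by
  unfold IsMorava at h
  unfold IsMoravaK
  by_cases hn : n = 0
  · rw [if_pos hn] at h ⊢
    exact ⟨h.conc, h.ne, h.div, h.gen⟩
  · rw [if_neg hn] at h ⊢
    obtain ⟨h1, o, h2⟩ := h
    refine ⟨⟨h1.sparse, h1.char, h1.ne, h1.gen⟩, K, 𝟙 K.obj, inferInstance, o, ?_⟩
    obtain ⟨v, w, h3, h4⟩ := h2
    refine ⟨v, w, h3, fun e t q he ht hq => ?_⟩
    rw [push_id, push_id]
    exact h4 e t q he ht hq

end st

end Vale.Agent.P261.E
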