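import Vale.Agent.P261.H321.E.VModel
import Vale.Agent.P261.H321.E.ConvFin
import Vale.Agent.P261.H321.E.CobFin

/-!
# P261: finiteness of `π_* L_{K(h)} V` for `V` with cyclic `MU`-homology `Laz / I_h`
-/

open CategoryTheory MonoidalCategory MonObj Limits Pretriangulated

set_option linter.unusedSectionVars false

universe v u

namespace Vale.Agent.P261.E

open Vale.Agent.P251 Vale.Agent.P251.M Vale.Agent.P251.M.EvenSpheres Vale.Agent.P251.F
open Vale.Agent.P251.T Vale.Agent.P251.S Vale.Agent.P251.S.GD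
open Vale.Agent.P257.H314 (Cyc FinCell)

variable {T : Type u} [Category.{v} T] [Preadditive T] [HasZeroObject T]
    [HasShift T ℤ] [∀ n : ℤ, (shiftFunctor T n).Additive] [Pretriangulated T] [IsTriangulated T]
    [MonoidalCategory T] [SymmetricCategory T] [TensorTriangulated T] [MonoidalClosed T]
    [HasCoproducts.{0} T] [HasProducts.{0} T] [StableCat T]

section model

variable (D : I.MUData T) {K : T} (F : LocFunctor K) {V : T} {i : 𝟙_ T ⟶ V} {p h : ℕ}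
  [Fact p.Prime] (H : Cyc D p h i) (U : UnitCof D.R) (hp2 : p ≠ 2) (hh : 1 ≤ h)
  (hE : ∀ s, E1C F (D.vs p) h (MP D V s))

include hE in
theorem odd_V (s : ℕ) (t : ℤ) (ht : Odd t)
    (x : (𝟙_ T)⟦t⟧ ⟶ (tensorRight V ⋙ F.L).obj (U.cobar.Q (s + 1) (𝟙_ T))) : x = 0 :=
  odd_zero D U F (hE s) t ht x

include H hp2 hh hE

/-- The `E_2`-term is finite. -/
theorem finE_V (s : ℕ) (n : ℤ) :
    FinE (((U.tow (𝟙_ T)).map (tensorRight V ⋙ F.L)).couple (𝟙_ T)) s n := by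
  rcases Int.even_or_odd (n + (s : ℤ)) with he | ho
  · obtain ⟨w, hw⟩ := he
    obtain ⟨φ, hφ⟩ := exists_model D F H U hh hE w
    rcases s with _ | s
    · refine finE_zero U _ _ _ (t := 2 * w) (by rw [hw]; ring) ?_
      have hfin := (cobFin_zero (p := p) (h := h) hp2 hh w).to_subtype
      refine Set.finite_coe_iff.1 ?_
      refine Finite.of_injective (β := {z : Cob (NN p h 1) 0 | Cob.IsWt w z ∧ Cob.d 0 z = 0})
        (fun c => ⟨(φ 0 c.1).1, (φ 0 c.1).2, by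
          have h1 := hφ 0 c.1
          have h2 := c.2
          change c.1 ≫ _ = 0 at h2
          rw [h2, map_zero] at h1
          exact h1.symm⟩) ?_
      intro c c' hcc
      apply Subtype.ext
      apply (φ 0).injective
      apply Subtype.ext
      have h5 := congrArg Subtype.val hcc
      exact h5
    · refine finE_succ U _ _ _ (t := 2 * w) (by rw [hw]; ring) ?_
      obtain ⟨Q, hQ, q, hq⟩ := cobFin_succ (p := p) (h := h) hp2 hh w s
      refine ⟨Q, hQ, fun c => q (φ (s + 1) c).1, fun c c' hc hc' he => ?_⟩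
      have hd : ∀ c : (𝟙_ T)⟦2 * w⟧ ⟶ (tensorRight V ⋙ F.L).obj (U.cobar.Q (s + 2) (𝟙_ T)),
          c ≫ (tensorRight V ⋙ F.L).map (U.cobar.d (s + 2) (𝟙_ T)) = 0 →
          Cob.d (s + 1) (φ (s + 1) c).1 = 0 := by
        intro c hc
        have h1 := hφ (s + 1) c
        rw [hc, map_zero] at h1
        exact h1.symm
      obtain ⟨y, hy, hdy⟩ := hq _ _ (φ (s + 1) c).2 (hd c hc) (φ (s + 1) c').2 (hd c' hc') he
      refine ⟨(φ s).symm ⟨y, hy⟩, ?_⟩
      apply (φ (s + 1)).injective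
      apply Subtype.ext
      rw [hφ, AddEquiv.apply_symm_apply, map_sub]
      exact hdy
  · exact finE_of_zero U _ _ _
      (fun z => UnitCof.E_eq_zero_of_odd (odd_V D F U hE) s n ho z)

/-- The vanishing line. -/
theorem van_V (hd : ¬ (p - 1) ∣ h) (s : ℕ) (hs : h * h ≤ s) (n : ℤ) :
    (((U.tow (𝟙_ T)).map (tensorRight V ⋙ F.L)).couple (𝟙_ T)).Van s n := by
  rcases Int.even_or_odd (n + ((s + 1 : ℕ) : ℤ)) with he | ho
  · obtain ⟨w, hw⟩ := he
    obtain ⟨φ, hφ⟩ := exists_model D F H U hh hE w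
    refine U.van_of_exact _ _ _ (t := 2 * w) (by rw [hw]; ring) ?_
    intro c hc
    have h1 := hφ (s + 1) c
    rw [show c ≫ (tensorRight V ⋙ F.L).map (U.cobar.d (s + 1 + 1) (𝟙_ T)) = 0 from hc,
      map_zero] at h1
    obtain ⟨y, hy, hdy⟩ := cobVan (p := p) (h := h) hp2 hh hd w s hs (φ (s + 1) c).1
      (φ (s + 1) c).2 h1.symm
    refine ⟨(φ s).symm ⟨y, hy⟩, ?_⟩
    apply (φ (s + 1)).injective
    apply Subtype.ext
    rw [hφ, AddEquiv.apply_symm_apply]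
    exact hdy
  · intro b _
    refine ⟨0, ?_⟩
    rw [map_zero]
    exact (UnitCof.E_eq_zero_of_odd (odd_V D F U hE) (s + 1) n ho b).symm

end model

/-- **Finiteness of `π_* L_{K(h)} V`**, `V` cyclic. -/
theorem finite_LV (D : I.MUData T) {V : T} {i : 𝟙_ T ⟶ V} {p h : ℕ} [Fact p.Prime] (hp2 : p ≠ 2)
    (hh : 1 ≤ h) (hd : ¬ (p - 1) ∣ h) (H : Cyc D p h i) {S : Set ℤ} (hV : FinCell T S V)
    (Dk : KosData D.P (p : ℤ) h (D.vs p)) (F : LocFunctor Dk.K) (n : ℤ) :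
    Finite ((𝟙_ T)⟦n⟧ ⟶ F.L.obj V) := by
  obtain ⟨U⟩ := exists_unitCof D.R
  have hE : ∀ s, E1C F (D.vs p) h (MP D V s) := fun s => e1C_MP' D H hV hh Dk F s
  obtain ⟨c, hc⟩ := built_finEven_RPS D
  obtain ⟨b, hKF⟩ := Dk.built_finEven hc
  have h1 : Finite ((((U.tow (𝟙_ T)).map (tensorRight V ⋙ F.L)).couple (𝟙_ T)).D 0 n) := by
    refine finite_D0 (fun s => finE_V D F H U hp2 hh hE s n) (h * h + 1) ?_
    intro s hs y
    exact (U.tow (𝟙_ T)).converge_coeff V F (U.whisker_tow_c _)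
      (Dk.built_isRMul (built_isRMul_RPS D.R _)) hKF
      (fun s n hn z => UnitCof.E_eq_zero_of_odd (odd_V D F U hE) s n (Int.odd_iff.2 hn) z)
      (h * h) (fun s hs n => van_V D F H U hp2 hh hE hd s hs n) s hs n y
  have h2 : Finite ((𝟙_ T)⟦n + ((0 : ℕ) : ℤ)⟧ ⟶ F.L.obj (𝟙_ T ⊗ V)) := h1
  refine Finite.of_injective (β := (𝟙_ T)⟦n + ((0 : ℕ) : ℤ)⟧ ⟶ F.L.obj (𝟙_ T ⊗ V))
    (fun x => eqToHom (by simp) ≫ x ≫ F.L.map (λ_ V).inv) ?_
  intro x y hxy
  have h3 := (cancel_epi _).1 hxy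
  exact (cancel_mono _).1 h3

end Vale.Agent.P261.E
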