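import Vale.Agent.P251.S.RegMU
import Vale.Agent.P251.S.GrE
import Vale.Agent.P251.S.E1MU
import Vale.Agent.P257.H314.Assemble

/-!
# P261: the modules `N_s = (MU^{⊗ (s+1)} ⊗ V) ⊗ PS` for `V` with cyclic `MU`-homology
-/

open CategoryTheory MonoidalCategory MonObj Limits Pretriangulated

set_option linter.unusedSectionVars false

universe v u

namespace Vale.Agent.P261.E

open Vale.Agent.P251 Vale.Agent.P251.M Vale.Agent.P251.M.EvenSpheres Vale.Agent.P251.F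
open Vale.Agent.P251.T Vale.Agent.P251.S Vale.Agent.P251.S.GD
open Vale.Agent.P257.H314 (Cyc FinCell)

variable {T : Type u} [Category.{v} T] [Preadditive T] [HasZeroObject T]
    [HasShift T ℤ] [∀ n : ℤ, (shiftFunctor T n).Additive] [Pretriangulated T] [IsTriangulated T]
    [MonoidalCategory T] [SymmetricCategory T] [TensorTriangulated T] [MonoidalClosed T]
    [HasCoproducts.{0} T] [HasProducts.{0} T] [StableCat T]

section

variable (D : I.MUData T) {V : T} {i : 𝟙_ T ⟶ V} {p h : ℕ} (H : Cyc D p h i)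

theorem uN_rN_wt (s : ℕ) {w : ℤ} (z : Cob.wt Laz s w) :
    uN D i s ≫ (rN D V s z.1 : _ ⟶ _) =
      sharp (D.evw s w z ≫ (redC i).app (Am D.R (s + 1))) :=
  uN_rN D i s (D.of_evw z).symm

include H

/-- `π_0 N_s` is generated by the unit over `Cob Laz s`. -/
theorem exists_smul_uN' (s : ℕ) (f : 𝟙_ T ⟶ (Am D.R (s + 1) ⊗ V) ⊗ (stdEven T).PS) :
    ∃ z : Cob Laz s, uN D i s ≫ (rN D V s z : _ ⟶ _) = f := by
  obtain ⟨x, rfl⟩ := sharpTot_surjective (E := stdEven T) (Am D.R (s + 1) ⊗ V) f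
  induction x using DirectSum.induction_on with
  | zero =>
    refine ⟨0, ?_⟩
    rw [map_zero, map_zero]
    exact comp_zero
  | of w a =>
    obtain ⟨z, rfl⟩ := H.surj s w a
    refine ⟨z.1, ?_⟩
    rw [sharpTot_of, uN_rN_wt]
  | add x y hx hy =>
    obtain ⟨z, hz⟩ := hx
    obtain ⟨z', hz'⟩ := hy
    refine ⟨z + z', ?_⟩
    rw [map_add, map_add, ← hz, ← hz']
    exact Preadditive.comp_add _ _ _ _ _ _

theorem uN_rN_zero (s : ℕ) {w : ℤ} (z : Cob.wt Laz s w) (hz : z.1 ∈ IC p h s) :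
    uN D i s ≫ (rN D V s z.1 : _ ⟶ _) = 0 := by
  rw [uN_rN_wt, (H.ker s w z).2 hz]
  exact map_zero (sharpAdd (stdEven T) (Am D.R (s + 1) ⊗ V) w)

/-- The annihilator of the unit is contained in `I_h`. -/
theorem mem_IC_of_smul_uN (s : ℕ) (z : Cob Laz s)
    (hz : uN D i s ≫ (rN D V s z : _ ⟶ _) = 0) : z ∈ IC p h s := by
  have h1 : ∀ w ∈ Cob.wts z, Cob.proj w z ∈ IC p h s := by
    intro w hw
    let b : ∀ v : ℤ, Cob.wt Laz s v := fun v => ⟨Cob.proj v z, Cob.isWt_proj v z⟩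
    let a : ∀ v : ℤ, ((stdEven T).S v ⟶ Am D.R (s + 1) ⊗ V) := fun v =>
      D.evw s v (b v) ≫ (redC i).app (Am D.R (s + 1))
    have h2 : uN D i s ≫ (rN D V s z : _ ⟶ _) = ∑ v ∈ Cob.wts z, sharp (a v) := by
      conv_lhs => rw [← Cob.sum_proj z, map_sum]
      refine (Preadditive.comp_sum _ _ _).trans (Finset.sum_congr rfl fun v _ => ?_)
      exact uN_rN_wt D s (b v)
    rw [h2] at hz
    have h3 := congrArg (fun f => f ≫ ((Am D.R (s + 1) ⊗ V) ◁ wq (stdEven T) w)) hz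
    simp only [Preadditive.sum_comp, zero_comp] at h3
    rw [Finset.sum_eq_single w (fun v _ hvw => sharp_wq_ne _ _ hvw _)
      (fun hw' => absurd hw hw')] at h3
    have h4 : sharp (a w) = 0 := (sharp_wq w w rfl (a w)).symm.trans h3
    exact (H.ker s w (b w)).1 (sharp_injective w h4)
  rw [← Cob.sum_proj z]
  exact sum_mem h1

/-- `v_k`, `k < h`, acts by zero on `π_0 N_s`. -/
theorem kill_one (s k : ℕ) (hk : k < h) (x : 𝟙_ T ⟶ (Am D.R (s + 1) ⊗ V) ⊗ (stdEven T).PS) :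
    x ≫ (MP D V s).smul (D.vs p k) = 0 := by
  obtain ⟨z, rfl⟩ := exists_smul_uN' D H s x
  have h1 := lamN_mul D (i := i) (p := p) s k z
  change uN D i s ≫ (rN D V s _ : _ ⟶ _) = (uN D i s ≫ (rN D V s z : _ ⟶ _)) ≫ _ at h1
  rw [← h1]
  conv_lhs => rw [← Cob.sum_proj z, Finset.mul_sum, map_sum]
  refine (Preadditive.comp_sum _ _ _).trans (Finset.sum_eq_zero fun w _ => ?_)
  refine uN_rN_zero D H s ⟨MvPolynomial.C (Laz.v p k) * Cob.proj w z,
    (CobCompl.isWt_C_v k).mul (Cob.isWt_proj w z)⟩ ?_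
  refine Ideal.mul_mem_right _ _ ?_
  rw [CobCompl.IC_eq_span]
  exact Ideal.subset_span ⟨k, hk, rfl⟩

theorem oddZero_X' (s : ℕ) : OddZero (Am D.R (s + 1) ⊗ V) := by
  intro n hn f
  obtain ⟨k, rfl⟩ := hn
  exact H.odd s k f

theorem oddZero_N' (s : ℕ) : OddZero ((Am D.R (s + 1) ⊗ V) ⊗ (stdEven T).PS) :=
  OddZero.coprod fun m => (oddZero_X' D H s).tensS m

/-- The homotopy of `N_s` is even and killed by `v_0, …, v_{h-1}`. -/
theorem evReg_N' (s : ℕ) : EvReg h h (fun k => (MP D V s).smul (D.vs p k)) := by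
  refine ⟨oddZero_N' D H s, fun n hn => ?_⟩
  obtain ⟨w, rfl⟩ := hn
  let eS : (stdEven T).S w ≅ Sph T (w + w) :=
    (stdEven T).sphIso (Iso.refl _) w ≪≫ eqToIso (by rw [two_mul])
  refine RegW.iso_src eS ?_
  refine RegW.of_whiskerRight ((stdEven T).S (-w)) ?_
  refine RegW.iso_src ((stdEven T).unitIso w) ?_
  have h0 : RegW h h (fun k => (MP D V s).smul (D.vs p k)) (𝟙_ T) :=
    ⟨fun k hk x => kill_one D H s k hk x, fun j hj hjh => absurd hjh (not_lt.2 hj)⟩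
  refine h0.conj (perN _ (-w)) fun k => ?_
  have h1 := ModStr.IsLinear.smul (perN_linear (XR D V s) (-w)) (D.vs p k)
  rw [← MP_eq, ModStr.tensorRight_smul] at h1
  rw [← cancel_mono (perN _ (-w)).inv, Category.assoc, Category.assoc, Iso.hom_inv_id,
    Category.comp_id, h1, Iso.hom_inv_id_assoc]

/-- `v_k`, `k < h`, acts by zero on `π_* N_s`. -/
theorem kill_sph (s k : ℕ) (hk : k < h) (n : ℤ)
    (x : Sph T n ⟶ (Am D.R (s + 1) ⊗ V) ⊗ (stdEven T).PS) :
    x ≫ (MP D V s).smul (D.vs p k) = 0 := by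
  rcases Int.even_or_odd n with hn | hn
  · exact ((evReg_N' D H s).reg n hn).1 k hk x
  · rw [oddZero_N' D H s n hn x, zero_comp]

theorem oddZero_NP (s : ℕ) :
    OddZero (((Am D.R (s + 1) ⊗ V) ⊗ (stdEven T).PS) ⊗ (D.R ⊗ (stdEven T).PS)) :=
  (regC_of_family (v := D.vs p) (MP D V) (eN D V) (eN_linear D V)
    (fun s => evReg_N' D H s) s).odd 0

end

end Vale.Agent.P261.E
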