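import Vale.Agent.P261.H321.E.CobQuot

/-!
# P261: the cobar complex of `L_K (- ⊗ V)`, `V` cyclic, is `Cob (NN p h 1)`
-/

open CategoryTheory MonoidalCategory MonObj Limits Pretriangulated

set_option linter.unusedSectionVars false

universe v u

namespace Vale.Agent.P261.E

open Vale.Agent.P251 Vale.Agent.P251.M Vale.Agent.P251.M.EvenSpheres Vale.Agent.P251.F
open Vale.Agent.P251.T Vale.Agent.P251.S Vale.Agent.P251.S.GD
open Vale.Agent.P257.H314 (Cyc FinCell)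

variable {T : Type u} [Category.{v} T] [Preadditive T] [HasZeroObject T]
    [HasShift T ℤ] [∀ n : ℤ, (shiftFunctor T n).Additive] [Pretriangulated T] [IsTriangulated T]
    [MonoidalCategory T] [SymmetricCategory T] [TensorTriangulated T] [MonoidalClosed T]
    [HasCoproducts.{0} T] [HasProducts.{0} T] [StableCat T]

variable (D : I.MUData T) {K : T} (F : LocFunctor K) {V : T} {i : 𝟙_ T ⟶ V} {p h : ℕ}
  [Fact p.Prime] (H : Cyc D p h i)

include H in
omit [Fact p.Prime] in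
theorem mem_IC_smul (s : ℕ) (c : Cob Laz s) (hc : c ∈ IC p h s) :
    c • (HM.of (uN D i s) : Fs D V s) = 0 := by
  rw [CobCompl.IC_eq_span] at hc
  refine Submodule.span_induction (p := fun c _ => c • (HM.of (uN D i s) : Fs D V s) = 0)
    ?_ ?_ ?_ ?_ hc
  · rintro _ ⟨k, hk, rfl⟩
    apply HM.hom_ext
    change uN D i s ≫ (rN D V s (MvPolynomial.C (Laz.v p k)) : _ ⟶ _) = 0
    rw [rN_v]
    exact kill_one D H s k hk _
  · exact zero_smul _ _
  · intro a b _ _ ha hb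
    rw [add_smul, ha, hb, add_zero]
  · intro a b _ hb
    rw [smul_eq_mul, mul_smul, hb, smul_zero]

include H in
/-- **`Hom(𝟙, L N_s)` is `v_h⁻¹ (Cob Laz s / I_h)`.** -/
theorem cobQuot (s : ℕ) (hE : E1C F (D.vs p) h (MP D V s)) :
    CobQuot p h s (uL D F i s) := by
  have hgen : ∀ f : Fs D V s, ∃ c : Cob Laz s, c • (HM.of (uN D i s) : Fs D V s) = f := by
    intro f
    obtain ⟨z, hz⟩ := exists_smul_uN' D H s f.hom
    exact ⟨z, HM.hom_ext hz⟩
  refine CobQuot.of_compCond p h s (compCond D F s hE) (HM.of (uN D i s)) hgen ?_ ?_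
  · intro c hc
    exact mem_IC_of_smul_uN D H s c (congrArg HM.hom hc)
  · exact mem_IC_smul D H s

variable (U : UnitCof D.R) (hh : 1 ≤ h) (hE : ∀ s, E1C F (D.vs p) h (MP D V s))

include H hh hE

theorem exists_phi' (s : ℕ) (w : ℤ) :
    ∃ φ : ((𝟙_ T)⟦2 * w⟧ ⟶ F.L.obj (U.cobar.Q (s + 1) (𝟙_ T) ⊗ V)) ≃+
        Cob.wt (NN p h 1) s w,
      ∀ x, (φ x).1 = (cobQuot D F H s (hE s)).lam hh (iG D U V F s w x) :=
  CobQuot.exists_wt (cobQuot D F H s (hE s)) hh (wtProj D F s i) w (iG D U V F s w)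
    (iG_injective D U V F s w) (iG_range D U V F s w)

/-- **The cobar complex of `L_K V`, `V` cyclic.** -/
theorem exists_model (w : ℤ) :
    ∃ φ : ∀ s : ℕ, ((𝟙_ T)⟦2 * w⟧ ⟶
        (tensorRight V ⋙ F.L).obj (U.cobar.Q (s + 1) (𝟙_ T))) ≃+ Cob.wt (NN p h 1) s w,
      ∀ (s : ℕ) (x : (𝟙_ T)⟦2 * w⟧ ⟶ (tensorRight V ⋙ F.L).obj (U.cobar.Q (s + 1) (𝟙_ T))),
        (φ (s + 1) (x ≫ (tensorRight V ⋙ F.L).map (U.cobar.d (s + 1) (𝟙_ T)))).1 =
          Cob.d s (φ s x).1 := by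
  choose φ hφ using fun s => exists_phi' D F H U hh hE s w
  refine ⟨φ, fun s x => ?_⟩
  refine (hφ (s + 1) _).trans ?_
  rw [hφ s x]
  change (cobQuot D F H (s + 1) (hE (s + 1))).lam hh
    (iG D U V F (s + 1) w (x ≫ F.L.map (U.cobar.d (s + 1) (𝟙_ T) ▷ V))) = _
  rw [iG_d, map_sum, Cob.d_apply]
  refine Finset.sum_congr rfl fun k _ => ?_
  rw [map_zsmul]
  congr 1
  exact CobQuot.lam_map _ _ hh (mapE_smul D V F _) (mapE_uL D F _ i) _

end Vale.Agent.P261.E
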