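import Vale.Agent.P261.H321.E.VMod

/-!
# P261: nilpotence of `v_k`, `k < h`, on the modules `N_s`
-/

open CategoryTheory MonoidalCategory MonObj Limits Pretriangulated

set_option linter.unusedSectionVars false

universe v u

namespace Vale.Agent.P261.E

open Vale.Agent.P251 Vale.Agent.P251.M Vale.Agent.P251.M.EvenSpheres Vale.Agent.P251.F
open Vale.Agent.P251.T Vale.Agent.P251.S Vale.Agent.P251.S.GD
open Vale.Agent.P257.H314 (Cyc FinCell)

section cell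

variable {T : Type u} [Category.{v} T] [Preadditive T] [HasZeroObject T]
    [HasShift T ℤ] [∀ n : ℤ, (shiftFunctor T n).Additive] [Pretriangulated T]
    [MonoidalCategory T]

/-- Maps from a finite complex are killed by a power of an endomorphism which is zero on
homotopy. -/
theorem fin_nil {S : Set ℤ} {X : T} (hX : FinCell T S X) {N : T} (g : End N)
    (hg : ∀ (n : ℤ) (x : Sph T n ⟶ N), x ≫ (g : N ⟶ N) = 0) :
    ∃ m : ℕ, ∀ y : X ⟶ N, y ≫ ((g ^ m : End N) : N ⟶ N) = 0 := by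
  induction hX with
  | zero X hX => exact ⟨0, fun y => hX.eq_of_src _ _⟩
  | sphere d hd => exact ⟨1, fun y => by rw [pow_one]; exact hg d y⟩
  | ext Δ hΔ _ _ ih₁ ih₃ =>
    obtain ⟨m₁, h₁⟩ := ih₁
    obtain ⟨m₃, h₃⟩ := ih₃
    refine ⟨m₃ + m₁, fun y => ?_⟩
    obtain ⟨z, hz⟩ := Triangle.yoneda_exact₂ Δ hΔ (y ≫ ((g ^ m₁ : End N) : N ⟶ N)) (by
      rw [← Category.assoc]
      exact h₁ _)
    have h4 : y ≫ ((g ^ (m₃ + m₁) : End N) : N ⟶ N) =
        (y ≫ ((g ^ m₁ : End N) : N ⟶ N)) ≫ ((g ^ m₃ : End N) : N ⟶ N) := by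
      rw [pow_add, Category.assoc]
      rfl
    rw [h4, hz, Category.assoc, h₃, comp_zero]

end cell

variable {T : Type u} [Category.{v} T] [Preadditive T] [HasZeroObject T]
    [HasShift T ℤ] [∀ n : ℤ, (shiftFunctor T n).Additive] [Pretriangulated T] [IsTriangulated T]
    [MonoidalCategory T] [SymmetricCategory T] [TensorTriangulated T] [MonoidalClosed T]
    [HasCoproducts.{0} T] [HasProducts.{0} T] [StableCat T]

variable (D : I.MUData T) (V : T)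

/-- The unit `V ⟶ (MU^{⊗ (s+1)} ⊗ V) ⊗ PS`. -/
noncomputable def yN (s : ℕ) : V ⟶ (Am D.R (s + 1) ⊗ V) ⊗ (stdEven T).PS :=
  (ρ_ V).inv ≫ (unitMap (Am D.R (s + 1)) V ⊗ₘ η[(stdEven T).PS])

/-- `N_s` is a free module on `V`. -/
theorem yN_act (s : ℕ) :
    ((Am D.R (s + 1) ⊗ (stdEven T).PS) ◁ yN D V s) ≫ (MN D V s).act =
      ((Am D.R (s + 1) ⊗ (stdEven T).PS) ◁ (ρ_ V).inv) ≫
        tensorμ (Am D.R (s + 1)) (stdEven T).PS V (𝟙_ T) ≫
          (𝟙 (Am D.R (s + 1) ⊗ V) ⊗ₘ (ρ_ (stdEven T).PS).hom) := by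
  have h : (Am D.R (s + 1) ◁ unitMap (Am D.R (s + 1)) V) ≫ (MX D V s).act = 𝟙 _ :=
    whiskerLeft_unitMap_mulMap (R := Am D.R (s + 1)) V
  have h2 : (MN D V s).act = tensorμ (Am D.R (s + 1)) (stdEven T).PS (Am D.R (s + 1) ⊗ V)
      (stdEven T).PS ≫ ((MX D V s).act ⊗ₘ μ[(stdEven T).PS]) := rfl
  rw [yN, MonoidalCategory.whiskerLeft_comp, h2]
  simp only [Category.assoc]
  rw [tensorμ_natural_right_assoc, tensorHom_comp_tensorHom, h, MonObj.mul_one]

theorem epi_yN_act (s : ℕ) :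
    Epi (((Am D.R (s + 1) ⊗ (stdEven T).PS) ◁ yN D V s) ≫ (MN D V s).act) := by
  rw [yN_act]
  have h1 : IsIso (tensorμ (Am D.R (s + 1)) (stdEven T).PS V (𝟙_ T)) :=
    ⟨tensorδ (Am D.R (s + 1)) (stdEven T).PS V (𝟙_ T), by simp, by simp⟩
  infer_instance

/-- A scalar which kills the unit is zero. -/
theorem smul_eq_zero_of_yN (s : ℕ) (b : 𝟙_ T ⟶ Am D.R (s + 1) ⊗ (stdEven T).PS)
    (h : yN D V s ≫ (MN D V s).smul b = 0) : (MN D V s).smul b = 0 := by
  have h1 := epi_yN_act D V s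
  rw [← cancel_epi (((Am D.R (s + 1) ⊗ (stdEven T).PS) ◁ yN D V s) ≫ (MN D V s).act),
    comp_zero, Category.assoc, (MN D V s).smul_linear b, ← Category.assoc,
    ← MonoidalCategory.whiskerLeft_comp, h, MonoidalPreadditive.whiskerLeft_zero, zero_comp]

variable {V} {i : 𝟙_ T ⟶ V} {p h : ℕ} (H : Cyc D p h i) {S : Set ℤ} (hV : FinCell T S V)

include H hV in
/-- `v_k`, `k < h`, is nilpotent on `N_s`. -/
theorem nil_MP' (s k : ℕ) (hk : k < h) : IsNilpotent ((MP D V s).sm (D.vs p k)) := by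
  let b : 𝟙_ T ⟶ Am D.R (s + 1) ⊗ (stdEven T).PS :=
    D.vs p k ≫ (Am.v D.R (0 : Fin (s + 1)) ▷ (stdEven T).PS)
  have hb : (MP D V s).smul (D.vs p k) = (MN D V s).smul b := MP_smul D V s (D.vs p k)
  obtain ⟨m, hm⟩ := fin_nil hV ((MN D V s).smr (Sc.of b)) (fun n x => by
    have h1 := kill_sph D H s k hk n x
    rw [hb] at h1
    exact h1)
  have h2 : (MN D V s).smr (Sc.of b) ^ m = (MN D V s).smr (Sc.of b ^ m) := (map_pow _ _ _).symm
  refine ⟨m, ?_⟩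
  have h3 : ((MP D V s).sm (D.vs p k)) = (MN D V s).smr (Sc.of b) := hb
  rw [h3, h2]
  refine smul_eq_zero_of_yN D V s (Sc.hom (Sc.of b ^ m)) ?_
  have h4 := hm (yN D V s)
  rw [h2] at h4
  exact h4

include H hV in
/-- **Theorem E1** for `N_s`, `V` cyclic. -/
theorem e1C_MP' [Fact p.Prime] (hh : 1 ≤ h) (Dk : KosData D.P (p : ℤ) h (D.vs p))
    (F : LocFunctor Dk.K) (s : ℕ) : E1C F (D.vs p) h (MP D V s) :=
  E1C.of_tensorRight Dk (e1_base Dk F (MP D V s) (D.invData p h) hh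
    (fun _ _ X f => compact_sum X (isSphere_sph _) f) (fun k hk => nil_MP' D H hV s k hk)
    (oddZero_NP D H s))

end Vale.Agent.P261.E
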